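import Vale.Agent.P273.H888.Real
import Vale.Agent.P273.H894.ExtG

/-!
The value of a closed form on the standard families with distinct marks, its independence of the
choices, and its pull-back to any family which realizes the same curves.
-/

noncomputable section

namespace Vale.Agent.P273.H888

open Set Filter Topology H95
open scoped ContDiff
open Vale.Agent.P273.H183 (Fam IsClosedForm)
open Vale.Agent.P273.H680 (push k20 k17)

/-- Two square roots that agree at a point agree near the point. -/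
theorem eq_of_sq {X : Type*} [TopologicalSpace X] {f g : X → ℂ} {p : X} (hf : ContinuousAt f p)
    (hg : ContinuousAt g p) (h : f p = g p) (h0 : f p ≠ 0)
    (hs : ∀ᶠ q in 𝓝 p, f q ^ 2 = g q ^ 2) : ∀ᶠ q in 𝓝 p, f q = g q := by
  have h1 : f p + g p ≠ 0 := by
    rw [← h, ← two_mul]
    exact mul_ne_zero two_ne_zero h0
  filter_upwards [hs, (hf.add hg).eventually_ne h1] with q h2 h3
  have h4 : (f q - g q) * (f q + g q) = 0 := by linear_combination h2
  exact sub_eq_zero.1 ((mul_eq_zero.1 h4).resolve_right h3)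

/-- The stable family `C` over a neighbourhood of `e` is a standard family, with the sheets `v`
over `e`. -/
def Rlz (S : L → Bool) (e : E) (v : L → ℂ) (C : Fam L 20) : Prop :=
  ∃ σ : E → L → ℂ, Real k20 id S σ C ∧ k20.symm e ∈ C.B ∧ σ e = v

/-- Existence of the standard families near the interior points. -/
def A1 : Prop := ∀ (S : L → Bool) (e : E) (v : L → ℂ), e.1 ∈ K6 → OnC S e.1 e.2 v →
  Sep S e.2 v → ∃ C : Fam L 20, Rlz S e v C

open Classical in
/-- The value of the form `F` on the standard family. -/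
def FS (F : ∀ m, Fam L m → (Fin m → ℂ) → (Fin m → ℂ) [⋀^Fin 16]→L[ℝ] ℝ) (S : L → Bool) (e : E)
    (v : L → ℂ) : Alt 16 E :=
  if h : ∃ C : Fam L 20, Rlz S e v C then push k20 (F 20 h.choose) e else 0

theorem Dist.sep {S : L → Bool} {e : E} {v : L → ℂ} (h : Dist S e v) : Sep S e.2 v :=
  fun i j hij _ => h.2 i j hij

theorem same_refl (s : Bool) (z v : ℂ) : Same s z v s z v := by
  simp [Same]

variable {F : ∀ m, Fam L m → (Fin m → ℂ) → (Fin m → ℂ) [⋀^Fin 16]→L[ℝ] ℝ}

section

variable {n : ℕ} {M : Type} [NormedAddCommGroup M] [NormedSpace ℂ M] [NormedSpace ℝ M]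
  [IsScalarTower ℝ ℂ M]
  {k : (Fin n → ℂ) ≃L[ℂ] M} {ψ : M → E} {S : L → Bool} {σ : M → L → ℂ} {C : Fam L n}

theorem compare_rlz (hF : IsClosedForm L 16 F) (R : Real k ψ S σ C) {p : M}
    (hp : k.symm p ∈ C.B) (hd : Dist S (ψ p) (σ p)) {C₀ : Fam L 20}
    (h₀ : Rlz S (ψ p) (σ p) C₀) :
    push k (F n C) p =
      (push k20 (F 20 C₀) (ψ p)).compContinuousLinearMap (fderiv ℝ ψ p) := by
  obtain ⟨σ₀, R₀, hp₀, hσ⟩ := h₀
  have hψ := R.an hp
  have hsame : ∀ᶠ q in 𝓝 p, ∀ j, σ q j = σ₀ (ψ q) j := by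
    rw [eventually_all]
    intro j
    have h1 : ContinuousAt (fun q => σ₀ (ψ q) j) p :=
      ContinuousAt.comp (g := fun x => σ₀ x j) (R₀.anσ hp₀ j).continuousAt hψ.continuousAt
    refine eq_of_sq (R.anσ hp j).continuousAt h1 (by rw [hσ]) (hd.1 j).2 ?_
    filter_upwards [R.open'.mem_nhds hp, hψ.continuousAt.eventually (R₀.open'.mem_nhds hp₀)]
      with q h2 h3
    rw [R.sq' h2 j, R₀.sq' h3 j]
    rfl
  refine F_compare hF R R₀ hp hp₀ hψ (Eventually.of_forall fun q => rfl) ?_ hd
  filter_upwards [hsame] with q hq j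
  rw [hq j]
  exact same_refl _ _ _

/-- **The form of a family is the pull-back of the standard form.** -/
theorem FS_eq (hA : A1) (hF : IsClosedForm L 16 F) (R : Real k ψ S σ C) {p : M}
    (hp : k.symm p ∈ C.B) (hd : Dist S (ψ p) (σ p)) :
    push k (F n C) p = (FS F S (ψ p) (σ p)).compContinuousLinearMap (fderiv ℝ ψ p) := by
  have h : ∃ C : Fam L 20, Rlz S (ψ p) (σ p) C := by
    refine hA S (ψ p) (σ p) ?_ hd.1 hd.sep
    have := R.mem_K6 hp
    simpa using this
  rw [FS, dif_pos h]
  exact compare_rlz hF R hp hd h.choose_spec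

end

/-- At the interior points the standard form is the form of the standard family. -/
theorem FS_int (hA : A1) (hF : IsClosedForm L 16 F) {S : L → Bool} {e : E} {σ : E → L → ℂ}
    {C : Fam L 20} (R : Real k20 id S σ C) (hp : k20.symm e ∈ C.B) (hd : Dist S e (σ e)) :
    push k20 (F 20 C) e = FS F S e (σ e) := by
  have h := FS_eq hA hF R hp hd
  rw [h]
  have h1 : fderiv ℝ (id : E → E) e = ContinuousLinearMap.id ℝ E := fderiv_id
  rw [h1]
  rfl

end Vale.Agent.P273.H888

end
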