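import Vale.Agent.P273.H95.Wall
import Vale.Agent.P273.H591.Dense

/-!
The forms on the regions: from local extensions near every point of the domain of a region to the
fields `H`, `hreg`, `hext` of `H95.Ext`.
-/

noncomputable section

namespace Vale.Agent.P273.H888

open Set Filter H95
open scoped Topology ContDiff

/-! ### Gluing of local smooth closed extensions -/

section Abs

variable {A M : Type*} [NormedAddCommGroup A] [NormedSpace ℝ A] [NormedAddCommGroup M]
  [NormedSpace ℝ M] {k : ℕ}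

theorem extDeriv_congr {f g : A → A [⋀^Fin k]→L[ℝ] M} {p : A} (h : f =ᶠ[𝓝 p] g) :
    extDeriv f p = extDeriv g p := by
  rw [extDeriv, extDeriv, h.fderiv_eq]

/-- The value of the extension is the value of every function that is continuous at the point and
agrees with `f` on the dense set. -/
theorem extend_eq {X Y : Type*} [TopologicalSpace X] [TopologicalSpace Y] [T3Space Y] {O : Set X}
    {f : X → Y} {p : X} (hp : p ∈ closure O) {Q : X → Y} (hQ : ContinuousAt Q p)
    (h : ∀ᶠ q in 𝓝[O] p, Q q = f q) : extendFrom O f p = Q p := by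
  refine extendFrom_eq hp ?_
  exact (hQ.tendsto.mono_left nhdsWithin_le_nhds).congr' h

/-- Gluing of local extensions. -/
theorem glue {O U : Set A} {f : A → A [⋀^Fin k]→L[ℝ] M} (hU : IsOpen U) (hO : U ⊆ closure O)
    (loc : ∀ p ∈ U, ∃ (W : Set A) (h : A → A [⋀^Fin k]→L[ℝ] M), IsOpen W ∧ p ∈ W ∧
      ContDiffOn ℝ ∞ h W ∧ (∀ q ∈ W, extDeriv h q = 0) ∧ ∀ q ∈ W ∩ O, h q = f q) :
    ContDiffOn ℝ ∞ (extendFrom O f) U ∧ ∀ p ∈ U, extDeriv (extendFrom O f) p = 0 := by
  have key : ∀ p ∈ U, ∃ h : A → A [⋀^Fin k]→L[ℝ] M, ContDiffAt ℝ ∞ h p ∧ extDeriv h p = 0 ∧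
      extendFrom O f =ᶠ[𝓝 p] h := by
    intro p hp
    obtain ⟨W, h, hW, hpW, h1, h2, h3⟩ := loc p hp
    refine ⟨h, h1.contDiffAt (hW.mem_nhds hpW), h2 p hpW, ?_⟩
    filter_upwards [hW.mem_nhds hpW, hU.mem_nhds hp] with q hq hqU
    refine extend_eq (hO hqU) (h1.contDiffAt (hW.mem_nhds hq)).continuousAt ?_
    filter_upwards [mem_nhdsWithin_of_mem_nhds (hW.mem_nhds hq), self_mem_nhdsWithin] with q' k1 k2
    exact h3 q' ⟨k1, k2⟩
  refine ⟨fun p hp => ?_, fun p hp => ?_⟩
  · obtain ⟨h, h1, -, h2⟩ := key p hp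
    exact (h1.congr_of_eventuallyEq h2).contDiffWithinAt
  · obtain ⟨h, -, h1, h2⟩ := key p hp
    rw [extDeriv_congr h2, h1]

end Abs

/-! ### The regions with three necks -/

/-- All marks are distinct points of the curve, not at roots. -/
def Dist (S : L → Bool) (e : E) (v : L → ℂ) : Prop :=
  OnC S e.1 e.2 v ∧ ∀ i j : L, i ≠ j → ¬ Same (S i) (e.2 i) (v i) (S j) (e.2 j) (v j)

/-- The pull-back of the interior form to the region. -/
def pb (G : (L → Bool) → E → (L → ℂ) → Alt 16 E) (R : Region) (S : L → Bool) (p : R.Sp) :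
    Alt 16 R.Sp :=
  (G S (R.psi p) (R.sht S p)).compContinuousLinearMap (fderiv ℝ R.psi p)

/-- The standard points of the region with all marks distinct. -/
def Gen (R : Region) (S : L → Bool) : Set R.Sp :=
  {p | p ∈ R.dom S ∧ R.isStd S p ∧ Dist S (R.psi p) (R.sht S p)}

/-- The marks with the chart at infinity are on the cores. -/
def Far (R : Region) (S : L → Bool) : Prop := ∀ j, S j = true → (R.pl j).isRight = true

/-- **The output of the families**: near every point of the domain of the region there is a smooth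
closed form which at the standard points with distinct marks is the pull-back of the standard form
`FS`. -/
def RegLoc (FS : (L → Bool) → E → (L → ℂ) → Alt 16 E) : Prop :=
  ∀ (R : Region) (S : L → Bool), Far R S → ∀ p₀ ∈ R.dom S,
    ∃ (W : Set R.Sp) (h : R.Sp → Alt 16 R.Sp), IsOpen W ∧ p₀ ∈ W ∧ ContDiffOn ℝ ∞ h W ∧
      (∀ p ∈ W, extDeriv h p = 0) ∧ ∀ p ∈ W, p ∈ Gen R S → h p = pb FS R S p

/-- What is needed of the positions of the marks in the region. -/
structure PosOK (R : Region) (S : L → Bool) : Prop where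
  isOpen : IsOpen (R.dom S)
  psi : ContDiffOn ℝ ∞ R.psi (R.dom S)
  sht : ∀ j, ContinuousOn (fun p => R.sht S p j) (R.dom S)
  sq : ∀ p ∈ R.dom S, ∀ j, R.sht S p j ^ 2 = pol (S j) (R.psi p).1 (R.pos p j)
  K : ∀ p ∈ R.dom S, (R.psi p).1 ∈ K6
  sep : ∀ p ∈ R.dom S, R.isStd S p → Sep S (R.pos p) (R.sht S p)
  dense : R.dom S ⊆ closure (Gen R S)

/-- The form on the region. -/
def formH (FS : (L → Bool) → E → (L → ℂ) → Alt 16 E) (R : Region) (S : L → Bool) :
    R.Sp → Alt 16 R.Sp :=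
  extendFrom (Gen R S) (pb FS R S)

section

variable {FS G : (L → Bool) → E → (L → ℂ) → Alt 16 E}

theorem formH_reg (hloc : RegLoc FS) {R : Region} {S : L → Bool} (hS : Far R S)
    (hP : PosOK R S) : ContDiffOn ℝ ∞ (formH FS R S) (R.dom S) ∧
      ∀ p ∈ R.dom S, extDeriv (formH FS R S) p = 0 := by
  refine glue hP.isOpen hP.dense fun p hp => ?_
  obtain ⟨W, h, h1, h2, h3, h4, h5⟩ := hloc R S hS p hp
  exact ⟨W, h, h1, h2, h3, h4, fun q hq => h5 q hq.1 hq.2⟩

theorem onC_of_isStd {R : Region} {S : L → Bool} (hP : PosOK R S) {p : R.Sp}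
    (hp : p ∈ R.dom S) (hs : R.isStd S p) : OnC S (R.psi p).1 (R.pos p) (R.sht S p) :=
  fun j => ⟨hP.sq p hp j, hs.2 j⟩

theorem formH_ext
    (hreg : ∀ S e v, e.1 ∈ K6 → OnC S e.1 e.2 v → Sep S e.2 v →
      Near id S (G S) (fun g p => extDeriv g p = 0) e v)
    (hG : ∀ S e v, e.1 ∈ K6 → Dist S e v → G S e v = FS S e v)
    {R : Region} {S : L → Bool} (hP : PosOK R S) {p : R.Sp}
    (hp : p ∈ R.dom S) (hs : R.isStd S p) :
    formH FS R S p = (G S (R.psi p) (R.sht S p)).compContinuousLinearMap (fderiv ℝ R.psi p) := by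
  obtain ⟨W, g, r, hW, hpW, hr, hg, -, he⟩ :=
    hreg S (R.psi p) (R.sht S p) (hP.K p hp) (onC_of_isStd hP hp hs) (hP.sep p hp hs)
  have hdom : R.dom S ∈ 𝓝 p := hP.isOpen.mem_nhds hp
  have hpsi : ContDiffAt ℝ ∞ R.psi p := hP.psi.contDiffAt hdom
  have h1 : ∀ᶠ q in 𝓝 p, R.psi q ∈ W :=
    hpsi.continuousAt.preimage_mem_nhds (hW.mem_nhds hpW)
  have h2 : ∀ᶠ q in 𝓝 p, ∀ j, ‖R.sht S q j - R.sht S p j‖ < r := by
    rw [eventually_all]
    intro j
    have hc := (hP.sht j).continuousAt hdom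
    have := hc.preimage_mem_nhds (Metric.ball_mem_nhds _ hr)
    filter_upwards [this] with q hq
    rwa [mem_preimage, Metric.mem_ball, dist_eq_norm] at hq
  have h3 : ∀ᶠ q in 𝓝 p, (g (R.psi q)).compContinuousLinearMap (fderiv ℝ R.psi q) =
      (G S (R.psi q) (R.sht S q)).compContinuousLinearMap (fderiv ℝ R.psi q) := by
    filter_upwards [h1, h2, hdom] with q k1 k2 k3
    rw [he _ k1 _ (fun j => hP.sq q k3 j) k2]
  rw [← h3.self_of_nhds]
  refine extend_eq (Q := fun q => (g (R.psi q)).compContinuousLinearMap (fderiv ℝ R.psi q))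
    (hP.dense hp) ?_ ?_
  · have k1 : ContinuousOn (fun q => (g (R.psi q)).compContinuousLinearMap (fderiv ℝ R.psi q))
        (interior (R.dom S ∩ R.psi ⁻¹' W)) := by
      refine H591.continuousOn_pullback isOpen_interior hg.continuousOn
        ((hP.psi.of_le (by simp)).mono fun q hq => (interior_subset hq).1)
        fun q hq => (interior_subset hq).2
    exact k1.continuousAt (isOpen_interior.mem_nhds
      (mem_interior_iff_mem_nhds.2 (inter_mem hdom h1)))
  · filter_upwards [mem_nhdsWithin_of_mem_nhds h3, self_mem_nhdsWithin] with q k1 k2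
    rw [k1, pb, hG S _ _ (hP.K q k2.1) k2.2.2]

end

end Vale.Agent.P273.H888

end
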