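import Vale.Agent.P273.H888.SMap0
import Vale.Agent.P273.H888.ExtH
import Vale.Agent.P273.H680.X0Fam

/-!
Families over the coordinate spaces of the wall that realize given curves and marks; comparison of
the forms of two such families.
-/

noncomputable section

namespace Vale.Agent.P273.H888

open Set Filter Topology H95
open scoped ContDiff
open Vale.Agent.P273.H183 (tot startS Fam IsClosedForm)
open Vale.Agent.P273.H507 (Ctr SMap Good IsRestr)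
open Vale.Agent.P273.H680 (push conj)

/-- The stable family `C` over a part of `ℂ^n` realizes the curves with the coefficients
`(ψ p).1` with the marks `((ψ p).2 j, σ p j)` in the charts `S j`, where `p = k q`. -/
structure Real {n : ℕ} {M : Type} [NormedAddCommGroup M] [NormedSpace ℂ M]
    (k : (Fin n → ℂ) ≃L[ℂ] M) (ψ : M → E) (S : L → Bool) (σ : M → L → ℂ) (C : Fam L n) :
    Prop where
  stable : C.IsStable
  ctr : ∃ (W : Set (Fin n → ℂ)) (hW : IsOpen W)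
    (ha : ∀ b ∈ W, AnalyticAt ℂ (fun q => (ψ (k q)).1) b)
    (hK : ∀ b ∈ W, (ψ (k b)).1 ∈ H183.K6)
    (_ : Nonempty (tot W fun q => (ψ (k q)).1)) (r : C.X → tot W fun q => (ψ (k q)).1),
    C.B ⊆ W ∧ Ctr C (startS W (fun q => (ψ (k q)).1) hW ha hK)
      (fun j => posP (S j) (fun q => (ψ (k q)).2 j) (fun q => σ (k q) j)) r
  anz : ∀ j, ∀ b ∈ C.B, AnalyticAt ℂ (fun q => (ψ (k q)).2 j) b
  anv : ∀ j, ∀ b ∈ C.B, AnalyticAt ℂ (fun q => σ (k q) j) b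
  sq : ∀ j, ∀ b ∈ C.B, σ (k b) j ^ 2 = pol (S j) (ψ (k b)).1 ((ψ (k b)).2 j)

section

variable {n : ℕ} {M : Type} [NormedAddCommGroup M] [NormedSpace ℂ M]
  {k : (Fin n → ℂ) ≃L[ℂ] M} {ψ : M → E} {S : L → Bool} {σ : M → L → ℂ} {C : Fam L n}

theorem Real.anψ (R : Real k ψ S σ C) {b : Fin n → ℂ} (hb : b ∈ C.B) :
    AnalyticAt ℂ (fun q => ψ (k q)) b := by
  obtain ⟨W, hW, ha, -, -, -, hBW, -⟩ := R.ctr
  have h1 : AnalyticAt ℂ (fun q => (ψ (k q)).2) b := by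
    rw [analyticAt_pi_iff]
    exact fun j => R.anz j b hb
  exact (ha b (hBW hb)).prod h1

theorem Real.mem_K6 (R : Real k ψ S σ C) {b : Fin n → ℂ} (hb : b ∈ C.B) :
    (ψ (k b)).1 ∈ H95.K6 := by
  obtain ⟨W, hW, -, hK, -, -, hBW, -⟩ := R.ctr
  rw [H724.K6_eq]
  exact hK b (hBW hb)

theorem Real.open' (R : Real k ψ S σ C) : IsOpen (k.symm ⁻¹' C.B) :=
  R.stable.1.preimage k.symm.continuous

/-- A function on `M` that is analytic in the coordinates. -/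
theorem an_symm {G : Type} [NormedAddCommGroup G] [NormedSpace ℂ G] {f : M → G} {p : M}
    (h : AnalyticAt ℂ (fun q => f (k q)) (k.symm p)) : AnalyticAt ℂ f p := by
  have h1 : AnalyticAt ℂ (fun x : M => k.symm x) p := (k.symm : M →L[ℂ] (Fin n → ℂ)).analyticAt _
  have h2 : AnalyticAt ℂ ((fun q => f (k q)) ∘ fun x : M => k.symm x) p :=
    AnalyticAt.comp (g := fun q => f (k q)) h h1
  refine h2.congr (Eventually.of_forall fun x => ?_)
  simp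

theorem Real.an (R : Real k ψ S σ C) {p : M} (hp : k.symm p ∈ C.B) : AnalyticAt ℂ ψ p :=
  an_symm (R.anψ hp)

theorem Real.anσ (R : Real k ψ S σ C) {p : M} (hp : k.symm p ∈ C.B) (j : L) :
    AnalyticAt ℂ (fun x => σ x j) p :=
  an_symm (f := fun x => σ x j) (R.anv j _ hp)

theorem Real.sq' (R : Real k ψ S σ C) {p : M} (hp : k.symm p ∈ C.B) (j : L) :
    σ p j ^ 2 = pol (S j) (ψ p).1 ((ψ p).2 j) := by
  have := R.sq j _ hp
  simpa using this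

end

section compare

variable {n m : ℕ} {M M₀ : Type} [NormedAddCommGroup M] [NormedSpace ℂ M] [NormedSpace ℝ M]
  [IsScalarTower ℝ ℂ M] [NormedAddCommGroup M₀] [NormedSpace ℂ M₀] [NormedSpace ℝ M₀]
  [IsScalarTower ℝ ℂ M₀]
  {k : (Fin n → ℂ) ≃L[ℂ] M} {ψ : M → E} {S : L → Bool} {σ : M → L → ℂ} {C : Fam L n}
  {k₀ : (Fin m → ℂ) ≃L[ℂ] M₀} {ψ₀ : M₀ → E} {S₀ : L → Bool} {σ₀ : M₀ → L → ℂ} {C₀ : Fam L m}
  {N : ℕ} {F : ∀ m, Fam L m → (Fin m → ℂ) → (Fin m → ℂ) [⋀^Fin N]→L[ℝ] ℝ}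

theorem same_ne {s s' : Bool} {z v z' v' : ℂ} (h : Same s z v s' z' v') (hv : v ≠ 0) :
    v' ≠ 0 := by
  unfold Same at h
  split_ifs at h
  · rw [← h.2]; exact hv
  · rw [h.2]
    refine mul_ne_zero hv (pow_ne_zero 3 ?_)
    intro e
    rw [e, mul_zero] at h
    exact zero_ne_one h.1

/-- **Comparison of two families.** -/
theorem F_compare (hF : IsClosedForm L N F) (R : Real k ψ S σ C) (R₀ : Real k₀ ψ₀ S₀ σ₀ C₀)
    {χ : M → M₀} {p : M} (hp : k.symm p ∈ C.B) (hp₀ : k₀.symm (χ p) ∈ C₀.B)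
    (hχ : AnalyticAt ℂ χ p)
    (he : ∀ᶠ q in 𝓝 p, (ψ q).1 = (ψ₀ (χ q)).1)
    (hs : ∀ᶠ q in 𝓝 p, ∀ j, Same (S j) ((ψ q).2 j) (σ q j) (S₀ j) ((ψ₀ (χ q)).2 j) (σ₀ (χ q) j))
    (hd : Dist S (ψ p) (σ p)) :
    push k (F n C) p = (push k₀ (F m C₀) (χ p)).compContinuousLinearMap (fderiv ℝ χ p) := by
  refine H680.push_eq k k₀ hχ ?_
  set φ : (Fin n → ℂ) → Fin m → ℂ := conj k k₀ χ with hφdef
  set b : Fin n → ℂ := k.symm p with hb
  have hkb : k b = p := by rw [hb]; simp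
  have hkφ : ∀ c, k₀ (φ c) = χ (k c) := fun c => by rw [hφdef, conj]; simp
  have hφb : φ b = k₀.symm (χ p) := by rw [hφdef, conj, hkb]
  have hφa : AnalyticAt ℂ φ b := H680.analyticAt_conj k k₀ (by rw [hkb]; exact hχ)
  have hk : Tendsto (fun c => k c) (𝓝 b) (𝓝 p) := by
    rw [← hkb]; exact k.continuous.continuousAt
  -- the neighbourhood
  have hev : ∀ᶠ c in 𝓝 b, c ∈ C.B ∧ AnalyticAt ℂ φ c ∧ φ c ∈ C₀.B ∧
      (ψ (k c)).1 = (ψ₀ (χ (k c))).1 ∧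
      ∀ j, Same (S j) ((ψ (k c)).2 j) (σ (k c) j) (S₀ j) ((ψ₀ (χ (k c))).2 j) (σ₀ (χ (k c)) j) := by
    filter_upwards [R.stable.1.mem_nhds hp, hφa.eventually_analyticAt,
      hφa.continuousAt.eventually (R₀.stable.1.mem_nhds (by rw [hφb]; exact hp₀)),
      hk.eventually he, hk.eventually hs] with c h1 h2 h3 h4 h5
    exact ⟨h1, h2, h3, h4, h5⟩
  obtain ⟨D, hD1, hD, hbD⟩ := eventually_nhds_iff.1 hev
  have hDB : D ⊆ C.B := fun c hc => (hD1 c hc).1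
  obtain ⟨T, ι, hι⟩ := H507.exists_restr R.stable hD hDB ⟨b, hbD⟩
  obtain ⟨W, hW, ha, hK, hNe, r, hBW, hr⟩ := R.ctr
  obtain ⟨W₀, hW₀, ha₀, hK₀, hNe₀, r₀, hBW₀, hr₀⟩ := R₀.ctr
  have hr' := ctr_restr hr hDB hι
  have hDW : D ⊆ W := hDB.trans hBW
  have hφW : ∀ c ∈ D, φ c ∈ W₀ := fun c hc => hBW₀ (hD1 c hc).2.2.1
  have heq : ∀ c ∈ D, (ψ₀ (k₀ (φ c))).1 = (ψ (k c)).1 := fun c hc => by
    rw [hkφ]; exact (hD1 c hc).2.2.2.1.symm
  have hTB : T.B = D := hι.B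
  have hSM := sMap_smap (a := fun q => (ψ (k q)).1) (a₀ := fun q => (ψ₀ (k₀ q)).1)
    (φ := φ) (hW := hW) (ha := ha) (hK := hK) (hW₀ := hW₀) (ha₀ := ha₀) (hK₀ := hK₀) hD hDW hφW
    heq (fun c hc => (hD1 c hc).2.1)
  have hpos : ∀ j, ∀ c ∈ D, (smap φ (posP (S j) (fun q => (ψ (k q)).2 j) (fun q => σ (k q) j) c :
      tot W fun q => (ψ (k q)).1) : tot W₀ fun q => (ψ₀ (k₀ q)).1) =
      posP (S₀ j) (fun q => (ψ₀ (k₀ q)).2 j) (fun q => σ₀ (k₀ q) j) (φ c) := by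
    intro j c hc
    refine smap_posP (a := fun q => (ψ (k q)).1) (a₀ := fun q => (ψ₀ (k₀ q)).1) hDW hφW heq hc
      (R.sq j c (hDB hc)) (R₀.sq j _ (hD1 c hc).2.2.1) ?_
    simp only [hkφ]
    exact (hD1 c hc).2.2.2.2 j
  -- the point is good
  have hgood : Good (startS W (fun q => (ψ (k q)).1) hW ha hK)
      (fun j => posP (S j) (fun q => (ψ (k q)).2 j) (fun q => σ (k q) j)) b := by
    refine ⟨fun j => smooth_posP hW ha hK (hDW hbD) (R.sq j b hp) ?_, fun i j e => ?_⟩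
    · change σ (k b) j ≠ 0
      rw [hkb]
      exact (hd.1 j).2
    · by_contra hij
      have h1 := (posP_eq_iff (a := fun q => (ψ (k q)).1) (hDW hbD) (R.sq i b hp)
        (R.sq j b hp)).1 e
      simp only [hkb] at h1
      exact hd.2 i j hij h1
  have hgood₀ : Good (startS W₀ (fun q => (ψ₀ (k₀ q)).1) hW₀ ha₀ hK₀)
      (fun j => posP (S₀ j) (fun q => (ψ₀ (k₀ q)).2 j) (fun q => σ₀ (k₀ q) j)) (φ b) := by
    refine ⟨fun j => smooth_posP hW₀ ha₀ hK₀ (hφW b hbD) (R₀.sq j _ (hD1 b hbD).2.2.1) ?_,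
      fun i j e => ?_⟩
    · have h1 := (hD1 b hbD).2.2.2.2 j
      change σ₀ (k₀ (φ b)) j ≠ 0
      rw [hkφ]
      refine same_ne h1 ?_
      rw [hkb]
      exact (hd.1 j).2
    · refine hgood.2 i j ?_
      have e' := e
      simp only at e'
      rw [← hpos i b hbD, ← hpos j b hbD] at e'
      have hpr : ∀ j, (posP (S j) (fun q => (ψ (k q)).2 j) (fun q => σ (k q) j) b :
          tot W fun q => (ψ (k q)).1) ∈ (H183.pr ⁻¹' {b} : Set (tot W fun q => (ψ (k q)).1)) :=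
        fun j => pr_posP (a := fun q => (ψ (k q)).1) (z := fun q => (ψ (k q)).2 j)
          (v := fun q => σ (k q) j) (hDW hbD) (R.sq j b hp)
      exact (bijOn_smap hDW hφW heq hbD).injOn (hpr i) (hpr j) e'
  have hkey := H507.F_eq_good (C := C₀) (C' := T) (b := b) (φ := φ) (T := smap φ) hF R₀.stable
    hι.stable hr₀ hr' (fun c hc => (hD1 c (hTB ▸ hc)).2.1)
    (fun c hc => (hD1 c (hTB ▸ hc)).2.2.1) (by rw [hTB]; exact hSM)
    (fun j c hc => hpos j c (hTB ▸ hc)) (hTB.symm ▸ hbD) hgood hgood₀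
  rw [← hι.F_eq hDB R.stable hF hbD]
  exact hkey

end compare

end Vale.Agent.P273.H888

end
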