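import Vale.Agent.P273.H183.StartP
import Vale.Agent.P273.H724.Dict

/-!
The position of a mark in the start family from its coordinates in one of the two charts, and when
two positions are equal.
-/

noncomputable section

namespace Vale.Agent.P273.H888

open Set Filter H95
open Vale.Agent.P273.H183 (emb emb' crd crd' tr tot Zaff Zfar secA secF pA pF startS pr aff far)
open scoped Topology ComplexConjugate

variable {m : ℕ}

/-- The point of the ambient space with coordinates `(b, z, v)` in the chart `s`. -/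
def ept (s : Bool) (b : Fin m → ℂ) (z v : ℂ) : (Fin m → ℂ) × ℂ × ℂ × ℂ × ℂ :=
  if s = true then emb' (b, z, v) else emb (b, z, v)

theorem emb_inj {z z' : (Fin m → ℂ) × ℂ × ℂ} : emb z = emb z' ↔ z = z' :=
  ⟨fun h => by rw [← H183.crd_emb z, h, H183.crd_emb], fun h => by rw [h]⟩

theorem emb'_inj {z z' : (Fin m → ℂ) × ℂ × ℂ} : emb' z = emb' z' ↔ z = z' :=
  ⟨fun h => by rw [← H183.crd'_emb' z, h, H183.crd'_emb'], fun h => by rw [h]⟩

theorem emb_eq_emb' {b b' : Fin m → ℂ} {z v z' v' : ℂ} :
    emb (b, z, v) = emb' (b', z', v') ↔ b = b' ∧ z * z' = 1 ∧ v' = v * z' ^ 3 := by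
  constructor
  · intro h
    have h0 : z' ≠ 0 := by
      intro e
      have h1 := congrArg (fun p => p.2.1) h
      simp only [emb, emb', e, zero_mul, add_zero, zero_div] at h1
      exact one_div_ne_zero (H183.nn _) h1
    have h2 := H183.emb_tr (z := ((b', z', v') : (Fin m → ℂ) × ℂ × ℂ)) h0
    rw [← h2, emb_inj] at h
    simp only [tr, Prod.mk.injEq] at h
    obtain ⟨h3, h4, h5⟩ := h
    refine ⟨h3, by rw [h4, inv_mul_cancel₀ h0], ?_⟩
    rw [h5]
    field_simp
  · rintro ⟨rfl, h1, h2⟩
    have h0 : z' ≠ 0 := by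
      intro e
      rw [e, mul_zero] at h1
      exact zero_ne_one h1
    rw [← H183.emb_tr (z := ((b, z', v') : (Fin m → ℂ) × ℂ × ℂ)) h0, emb_inj]
    simp only [tr, Prod.mk.injEq, true_and]
    refine ⟨eq_inv_of_mul_eq_one_left h1, ?_⟩
    rw [h2]
    field_simp

theorem Same.symm' {s s' : Bool} {z v z' v' : ℂ} (h : Same s z v s' z' v') :
    Same s' z' v' s z v := by
  unfold Same at h ⊢
  by_cases hs : s = s'
  · rw [if_pos hs] at h
    rw [if_pos hs.symm]
    exact ⟨h.1.symm, h.2.symm⟩
  · rw [if_neg hs] at h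
    rw [if_neg (fun e => hs e.symm)]
    obtain ⟨h1, h2⟩ := h
    refine ⟨by rw [mul_comm, h1], ?_⟩
    rw [h2, mul_assoc, ← mul_pow, mul_comm z' z, h1, one_pow, mul_one]

theorem ept_eq_iff {s s' : Bool} {b b' : Fin m → ℂ} {z v z' v' : ℂ} :
    ept s b z v = ept s' b' z' v' ↔ b = b' ∧ Same s z v s' z' v' := by
  cases s <;> cases s'
  · simp only [ept, Same, if_true, Bool.false_eq_true, if_false, emb_inj, Prod.mk.injEq]
  · simp only [ept, Same, if_true, Bool.false_eq_true, if_false, emb_eq_emb']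
  · have h : (true = false) = False := by simp
    constructor
    · intro e
      have e' : emb (b', z', v') = emb' (b, z, v) := by
        simpa [ept] using e.symm
      obtain ⟨h1, h2, h3⟩ := emb_eq_emb'.1 e'
      refine ⟨h1.symm, ?_⟩
      have h4 : Same false z' v' true z v := by
        simp only [Same, Bool.false_eq_true, if_false]
        exact ⟨h2, h3⟩
      exact Same.symm' h4
    · rintro ⟨h1, h2⟩
      have h3 := Same.symm' h2
      simp only [Same, Bool.false_eq_true, if_false] at h3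
      have h4 : emb (b', z', v') = emb' (b, z, v) := emb_eq_emb'.2 ⟨h1.symm, h3.1, h3.2⟩
      simpa [ept] using h4.symm
  · simp only [ept, Same, if_true, emb'_inj, Prod.mk.injEq]

/-! ### Positions as maps to the total space -/

variable {B : Set (Fin m → ℂ)} {a : (Fin m → ℂ) → Fin 6 → ℂ}

/-- The position with coordinates `z`, `v` in the chart `s`. -/
def posP [Nonempty (tot B a)] (s : Bool) (z v : (Fin m → ℂ) → ℂ) (b : Fin m → ℂ) : tot B a :=
  if s = true then secF z v b else secA z v b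

theorem posP_val [Nonempty (tot B a)] {s : Bool} {z v : (Fin m → ℂ) → ℂ} {b : Fin m → ℂ}
    (hb : b ∈ B) (h : v b ^ 2 = pol s (a b) (z b)) :
    (posP s z v b : tot B a).1 = ept s b (z b) (v b) := by
  cases s
  · rw [H724.pol_false] at h
    have h1 : (b, z b, v b) ∈ Zaff B a := ⟨hb, h⟩
    simp only [posP, ept, Bool.false_eq_true, if_false]
    rw [H183.secA_eq h1]
    rfl
  · rw [H724.pol_true] at h
    have h1 : (b, z b, v b) ∈ Zfar B a := ⟨hb, h⟩
    simp only [posP, ept, if_true]
    rw [H183.secF_eq h1]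
    rfl

theorem posP_eq_iff [Nonempty (tot B a)] {s s' : Bool} {z v z' v' : (Fin m → ℂ) → ℂ}
    {b : Fin m → ℂ} (hb : b ∈ B) (h : v b ^ 2 = pol s (a b) (z b))
    (h' : v' b ^ 2 = pol s' (a b) (z' b)) :
    (posP s z v b : tot B a) = posP s' z' v' b ↔ Same s (z b) (v b) s' (z' b) (v' b) := by
  rw [Subtype.ext_iff, posP_val hb h, posP_val hb h', ept_eq_iff]
  exact ⟨fun h => h.2, fun h => ⟨rfl, h⟩⟩

variable (hB : IsOpen B) (ha : ∀ b ∈ B, AnalyticAt ℂ a b) (hK : ∀ b ∈ B, a b ∈ H183.K6)

theorem isSec_posP [Nonempty (tot B a)] {s : Bool} {z v : (Fin m → ℂ) → ℂ}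
    {B' : Set (Fin m → ℂ)} (hB' : IsOpen B') (hBB : B' ⊆ B)
    (hz : ∀ b ∈ B', AnalyticAt ℂ z b) (hv : ∀ b ∈ B', AnalyticAt ℂ v b)
    (he : ∀ b ∈ B', v b ^ 2 = pol s (a b) (z b)) :
    H948.IsSec (startS B a hB ha hK) B' (posP s z v) := by
  cases s
  · have h : (posP false z v : (Fin m → ℂ) → tot B a) = secA z v := by
      funext b; simp [posP]
    rw [h]
    exact H183.isSec_secA hB ha hK hB' hBB hz hv fun b hb => by
      rw [he b hb, H724.pol_false]
  · have h : (posP true z v : (Fin m → ℂ) → tot B a) = secF z v := by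
      funext b; simp [posP]
    rw [h]
    exact H183.isSec_secF hB ha hK hB' hBB hz hv fun b hb => by
      rw [he b hb, H724.pol_true]

theorem smooth_posP [Nonempty (tot B a)] {s : Bool} {z v : (Fin m → ℂ) → ℂ} {b : Fin m → ℂ}
    (hb : b ∈ B) (h : v b ^ 2 = pol s (a b) (z b)) (hv : v b ≠ 0) :
    (startS B a hB ha hK).SmoothAt (posP s z v b) := by
  cases s
  · rw [H724.pol_false] at h
    have h1 : (b, z b, v b) ∈ Zaff B a := ⟨hb, h⟩
    have h2 : (posP false z v b : tot B a) = secA z v b := by simp [posP]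
    rw [h2]
    refine H183.smooth_aff hB ha hK (H183.secA_mem h1) (Or.inl ?_)
    rw [H183.yC, H183.cA_secA h1]
    exact hv
  · rw [H724.pol_true] at h
    have h1 : (b, z b, v b) ∈ Zfar B a := ⟨hb, h⟩
    have h2 : (posP true z v b : tot B a) = secF z v b := by simp [posP]
    rw [h2]
    refine H183.smooth_far hB ha hK (H183.secF_mem h1) ?_
    rw [H183.uC, H183.cF_secF h1]
    exact hv

end Vale.Agent.P273.H888

end
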