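import Vale.Agent.P273.H888.Pre
import Vale.Agent.P273.H894.Int
import Vale.Agent.P273.H883.RegLoc1
import Vale.Agent.P273.H724.Real0
import Vale.Agent.P273.H183.RealInt

/-!
The standard form and its local extensions, without hypotheses: `IntLoc`, `IntChg`, `RegLoc`,
`RegLoc1` for `FS F`.
-/

noncomputable section

namespace Vale.Agent.P273.H888

open Set Filter Topology H95
open scoped ContDiff
open Vale.Agent.P273.H183 (Fam IsClosedForm tot startS)
open Vale.Agent.P273.H680 (push k20 k17 k20')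
open Vale.Agent.P273.H507 (Ctr)

/-- **The standard families near the interior points.** -/
theorem a1 : A1 := by
  intro S e v hK hv hs
  have he : k20 (k20.symm e) = e := k20.apply_symm_apply e
  have hK' : (k20 (k20.symm e)).1 ∈ H183.K6 := by rw [he, ← H724.K6_eq]; exact hK
  obtain ⟨W, V, D, hc, hV⟩ := H183.exists_loc k20 S (c := k20.symm e) (v := v) hK'
    (fun j => by rw [he, H183.polS_eq]; exact (hv j).1) (fun j => (hv j).2)
  have hne : Nonempty (tot W (H183.ea k20)) := D.nonempty hc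
  have hsep : ∀ i j, i ≠ j → (Prod.snd i : Bool) = Prod.snd j →
      ¬ H183.SameP (S i) (H183.za k20 i (k20.symm e)) (V i (k20.symm e)) (S j)
        (H183.za k20 j (k20.symm e)) (V j (k20.symm e)) := by
    intro i j hij ht h
    refine hs i j hij ht ?_
    have h' := (H183.sameP_iff _ _ _ _ _ _).1 h
    rw [hV, hV] at h'
    simp only [H183.za, he] at h'
    exact h'
  obtain ⟨C, h1, h2, h3, r, h4⟩ := D.exists_ctr hc Prod.snd hsep
  have hkk : ∀ b : Fin 20 → ℂ, k20.symm (id (k20 b)) = b := fun b => k20.symm_apply_apply b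
  refine ⟨C, fun p j => V j (k20.symm p), ⟨h3, ?_, ?_, ?_, ?_⟩, h1, ?_⟩
  · refine ⟨W, D.opn, fun b _ => H183.an_ea b, D.k6, hne, r, h2, ?_⟩
    have hP : (fun j => posP (S j) (H183.za k20 j) (V j)) =
        fun j => (posP (S j) (fun q => (id (k20 q)).2 j) (fun q => V j (k20.symm (k20 q))) :
          (Fin 20 → ℂ) → tot W (H183.ea k20)) := by
      funext j
      have h5 : (fun q : Fin 20 → ℂ => V j (k20.symm (k20 q))) = V j := by
        funext q
        rw [k20.symm_apply_apply]
      rw [h5]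
      rfl
    rw [hP] at h4
    exact h4
  · exact fun j b _ => H183.an_za j b
  · intro j b hb
    have h5 : (fun q : Fin 20 → ℂ => V j (k20.symm (k20 q))) = V j := by
      funext q
      rw [k20.symm_apply_apply]
    rw [h5]
    exact D.an j b (h2 hb)
  · intro j b hb
    have h5 := D.sq j b (h2 hb)
    rw [H183.polS_eq] at h5
    simp only [k20.symm_apply_apply]
    exact h5
  · funext j
    exact hV j

/-- **The families over the regions with three necks.** -/
theorem a2 : A2 := by
  intro R S hS p₀ hp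
  obtain ⟨C, h1, h2, -⟩ := H724.real0 hS hp
  exact ⟨C, h1, h2⟩

variable {F : ∀ m, Fam L m → (Fin m → ℂ) → (Fin m → ℂ) [⋀^Fin 16]→L[ℝ] ℝ}

theorem intLoc (hF : IsClosedForm L 16 F) : H894.Int.IntLoc (FS F) := by
  intro S e v hK hv hs
  obtain ⟨C, σ, R, hp, hσ⟩ := a1 S e v hK hv hs
  obtain ⟨h1, h2, h3⟩ := H680.fam_push hF R.stable k20
  obtain ⟨W, r, hW, heW, hWO, hr, h4⟩ := exists_near (O := k20.symm ⁻¹' C.B) (S := S)
    (fun j => (hv j).2) (fun j => (R.anσ hp j).continuousAt) hσ (R.open'.mem_nhds hp)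
    (fun p hp j => R.sq' hp j)
  refine ⟨W, push k20 (F 20 C), r, hW, heW, hr, h2.mono hWO, fun p hp => h3 p (hWO hp), ?_⟩
  intro p hp v' k1 k2
  obtain ⟨h5, -⟩ := h4 p hp v' (fun j => (k2.1 j).1) k1
  subst h5
  exact (FS_int a1 hF R (hWO hp) k2).symm

theorem intChg (hF : IsClosedForm L 16 F) : H894.Int.IntChg (FS F) := by
  intro S S' e v hK hd h0
  exact pre_chg a1 hF hK hd.1 hd.2 h0

/-- **Three necks.** -/
theorem regLoc' (hF : IsClosedForm L 16 F) : RegLoc (FS F) := regLoc a1 a2 hF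

theorem fsEq1 (hF : IsClosedForm L 16 F) : H883.FSeq1 F (FS F) :=
  fun _ _ _ _ h _ hp hd => FS_eq a1 hF h hp hd

/-- **One neck.** -/
theorem regLoc1 (hF : IsClosedForm L 16 F) : RegLoc1 (FS F) :=
  H883.regLoc1_of hF (fsEq1 hF)

end Vale.Agent.P273.H888

end
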