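import Vale.Agent.P273.H888.Split0
import Vale.Agent.P273.D14.H741.Final5
import Vale.Agent.P273.D14.H462.Last
import Vale.Agent.P273.D14.H387.Plug8

/-!
The functional of the first part satisfies Pixton's relations, does not vanish on `x`, and its value
on the theta graphs with moved core legs is the value on the theta graphs, up to the sign.
-/

noncomputable section

namespace Vale.Agent.P273.H888

open Sum Vale.Agent.P273 Vale.Agent.P273.Z Vale.Agent.P273.D14 Vale.Agent.P273.D14.H387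
  Vale.Agent.P273.D14.H837 Vale.Agent.P273.D14.H462
open scoped Classical

/-- The theta graph of `Z.th`, with the core leg of class `b` (the leg with `σ b i = 6`) at the
vertex `none` if `c b` is true. -/
def thc (c : Bool → Bool) (p q : ℕ) (σ : Bool → Equiv.Perm (Fin 7)) :
    ((Fin 3 ⊕ Fin 6) × Bool) ⊕ (Fin 7 × Bool) → Option (Fin 7) :=
  Sum.elim (fun y => Z.th p q σ (inl y)) fun x =>
    if c x.2 = true ∧ σ x.2 x.1 = 6 then none else some (σ x.2 x.1)

theorem thc_false (p q : ℕ) (σ : Bool → Equiv.Perm (Fin 7)) :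
    thc (fun _ => false) p q σ = Z.th p q σ := by
  funext y
  rcases y with y | ⟨i, b⟩
  · rfl
  · simp [thc, Z.th]

theorem thc_eq (c : Bool → Bool) (p q : ℕ) (σ : Bool → Equiv.Perm (Fin 7)) :
    (fun y => (thc c p q σ y, 0)) = thq c p q σ := by
  funext y
  rcases y with z | ⟨i, b⟩
  · have h := congrFun (th_eq p q σ) (inl z)
    rw [Num.th_inl] at h
    exact h
  · rfl

/-- The functional with 14 legs. -/
def sF : Q.Fn (Fin 7 × Bool) := FF (G ff)

theorem pix_sF : Q.Pix 2 9 sF := by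
  have hN : N2St := fun _ _ _ _ _ _ _ h1 h2 h3 _ _ h4 => nice2_ph ff_inv ff_br h1 h2 h3 h4
  exact pix_FG ff_br (pix_of f0_ff f11_ff (f12_ff hN) (f12b_ff hN))

theorem onX_sF : onX (fun h => sF _ _ (fun _ => (0, 0)) fun y => (h y, 0)) =
    7 * 5040 ^ 2 / 6 := by
  have h1 := onX_eq (fun h => sF (Option (Fin 7)) (Fin 3 ⊕ Fin 6) (fun _ => (0, 0)) fun y => (h y, 0))
      (fun g => sF (Option (Fin 7)) (Fin 3 ⊕ Fin 6) Num.und g)
      (fun p q σ => by rw [th_eq]; rfl) (isoInv_fn pix_sF.1)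
  have h2 := FX ff fun _ _ _ => rfl
  have h3 : -6 * onX (fun h => sF (Option (Fin 7)) (Fin 3 ⊕ Fin 6) (fun _ => (0, 0))
      fun y => (h y, 0)) = -7 * 5040 ^ 2 := by
    rw [← h1, ← h2]
    rfl
  linarith

theorem sF_thc (c : Bool → Bool) (p q : ℕ) (σ : Bool → Equiv.Perm (Fin 7)) (hp : p ≤ q)
    (hq : q ≤ 6) :
    sF _ _ (fun _ => (0, 0)) (fun y => (thc c p q σ y, 0)) =
      (if c true = c false then 1 else -1) *
        sF _ _ (fun _ => (0, 0)) (fun y => (Z.th p q σ y, 0)) := by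
  rw [thc_eq, th_eq]
  exact FF_thq_eq ff c ⟨p, by omega⟩ ⟨q, by omega⟩ hp σ

theorem valid_thc (c : Bool → Bool) (p q : ℕ) (σ : Bool → Equiv.Perm (Fin 7)) (hp : p ≤ q)
    (hq : q ≤ 6) : Z.Valid (fun _ => (0, 0)) (fun y => (thc c p q σ y, 0)) 2 9 := by
  rw [thc_eq, valid_iff]
  exact thq_valid c ⟨p, by omega⟩ ⟨q, by omega⟩ hp σ

/-- The five terms with moved core legs. -/
def onXc (c : Bool → Bool)
    (F : (((Fin 3 ⊕ Fin 6) × Bool) ⊕ (Fin 7 × Bool) → Option (Fin 7)) → ℚ) : ℚ :=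
  ∑ σ : Bool → Equiv.Perm (Fin 7), (Equiv.Perm.sign (σ true) * Equiv.Perm.sign (σ false) : ℤ) *
    (F (thc c 2 4 σ) - 2 * F (thc c 1 3 σ) + F (thc c 0 3 σ) + F (thc c 1 2 σ) -
      F (thc c 0 2 σ))

theorem onXc_sF (c : Bool → Bool) : onXc c (fun h => sF _ _ (fun _ => (0, 0)) fun y => (h y, 0)) =
    (if c true = c false then 1 else -1) * (7 * 5040 ^ 2 / 6) := by
  rw [← onX_sF]
  unfold onXc onX
  rw [Finset.mul_sum]
  refine Finset.sum_congr rfl fun σ _ => ?_
  simp only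
  rw [sF_thc c 2 4 σ (by norm_num) (by norm_num), sF_thc c 1 3 σ (by norm_num) (by norm_num),
    sF_thc c 0 3 σ (by norm_num) (by norm_num), sF_thc c 1 2 σ (by norm_num) (by norm_num),
    sF_thc c 0 2 σ (by norm_num) (by norm_num)]
  ring

/-- The part of the theorem about Pixton's relations, with both core legs at one end minus one core
leg at each end. -/
theorem split_part :
    (∀ c p q σ, p ≤ q → q ≤ 6 → Z.Valid (fun _ => (0, 0)) (fun y => (thc c p q σ y, 0)) 2 9) ∧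
    ∃ s : Z.Fn (Fin 7 × Bool), Z.Pix 2 9 s ∧
      onX (fun h => s _ _ (fun _ => (0, 0)) fun y => (h y, 0)) ≠ 0 ∧
      ∀ c p q σ, p ≤ q → q ≤ 6 → s _ _ (fun _ => (0, 0)) (fun y => (thc c p q σ y, 0)) =
        (if c true = c false then 1 else -1) *
          s _ _ (fun _ => (0, 0)) (fun y => (Z.th p q σ y, 0)) := by
  refine ⟨fun c p q σ hp hq => valid_thc c p q σ hp hq, sF, (Z.pix_iff sF).2 pix_sF, ?_,
    fun c p q σ hp hq => sF_thc c p q σ hp hq⟩
  rw [onX_sF]
  norm_num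

end Vale.Agent.P273.H888
end
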