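import Vale.Agent.P273.H888.FS

/-!
The interior data of the extension: `H894.Pre` from the standard families; the local extensions on
the regions with three necks from the families over the regions.
-/

noncomputable section

namespace Vale.Agent.P273.H888

open Set Filter Topology H95
open scoped ContDiff
open Vale.Agent.P273.H183 (Fam IsClosedForm)
open Vale.Agent.P273.H680 (push k20 k17)

variable {F : ∀ m, Fam L m → (Fin m → ℂ) → (Fin m → ℂ) [⋀^Fin 16]→L[ℝ] ℝ}

/-- Sheets near the given ones are the sheets of the branch. -/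
theorem exists_near {S : L → Bool} {e : E} {v : L → ℂ} (hv : ∀ j, v j ≠ 0) {σ : E → L → ℂ}
    (hσ : ∀ j, ContinuousAt (fun x => σ x j) e) (he : σ e = v)
    {O : Set E} (hO : O ∈ 𝓝 e) (hsq : ∀ p ∈ O, ∀ j, σ p j ^ 2 = pol (S j) p.1 (p.2 j)) :
    ∃ (W : Set E) (r : ℝ), IsOpen W ∧ e ∈ W ∧ W ⊆ O ∧ 0 < r ∧
      ∀ p ∈ W, ∀ v' : L → ℂ, (∀ j, v' j ^ 2 = pol (S j) p.1 (p.2 j)) →
        (∀ j, ‖v' j - v j‖ < r) → v' = σ p ∧ ∀ j, v' j ≠ 0 := by
  obtain ⟨ρ, hρ, hρv⟩ : ∃ ρ : ℝ, 0 < ρ ∧ ∀ j, ρ ≤ ‖v j‖ := by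
    refine ⟨Finset.univ.inf' Finset.univ_nonempty fun j => ‖v j‖, ?_, fun j =>
      Finset.inf'_le _ (Finset.mem_univ j)⟩
    rw [Finset.lt_inf'_iff]
    exact fun j _ => norm_pos_iff.2 (hv j)
  have h1 : ∀ᶠ p in 𝓝 e, p ∈ O ∧ ∀ j, ‖σ p j - v j‖ < ρ / 2 := by
    refine Filter.Eventually.and hO ?_
    rw [eventually_all]
    intro j
    have h2 := (hσ j).preimage_mem_nhds (Metric.ball_mem_nhds _ (half_pos hρ))
    filter_upwards [h2] with p hp
    rw [mem_preimage, Metric.mem_ball, dist_eq_norm, he] at hp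
    exact hp
  obtain ⟨W, hW1, hW, heW⟩ := eventually_nhds_iff.1 h1
  refine ⟨W, ρ / 2, hW, heW, fun p hp => (hW1 p hp).1, half_pos hρ, ?_⟩
  intro p hp v' hv' hr
  refine ⟨?_, fun j h0 => ?_⟩
  · funext j
    have h2 : (v' j - σ p j) * (v' j + σ p j) = 0 := by
      have h3 := hv' j
      have h4 := hsq p (hW1 p hp).1 j
      linear_combination h3 - h4
    rcases mul_eq_zero.1 h2 with h3 | h3
    · exact sub_eq_zero.1 h3
    · exfalso
      have h4 := hr j
      have h5 := (hW1 p hp).2 j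
      have h6 : (2 : ℂ) * v j = -(v' j - v j) - (σ p j - v j) := by linear_combination h3
      have h7 : ‖(2 : ℂ) * v j‖ ≤ ‖v' j - v j‖ + ‖σ p j - v j‖ := by
        rw [h6]
        calc ‖-(v' j - v j) - (σ p j - v j)‖ ≤ ‖-(v' j - v j)‖ + ‖σ p j - v j‖ := norm_sub_le _ _
          _ = _ := by rw [norm_neg]
      rw [norm_mul, Complex.norm_ofNat] at h7
      have h8 := hρv j
      linarith
  · have h4 := hr j
    rw [h0, zero_sub, norm_neg] at h4
    have h8 := hρv j
    linarith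

/-- The field `loc`. -/
theorem pre_loc (hA : A1) (hF : IsClosedForm L 16 F) {S : L → Bool} {e : E} {v : L → ℂ}
    (hK : e.1 ∈ K6) (hv : OnC S e.1 e.2 v) (hs : H95.Sep S e.2 v) :
    ∃ g, H894.IsLoc (FS F) S e v g := by
  obtain ⟨C, σ, R, hp, hσ⟩ := hA S e v hK hv hs
  obtain ⟨h1, h2, h3⟩ := H680.fam_push hF R.stable k20
  obtain ⟨W, r, hW, heW, hWO, hr, h4⟩ := exists_near (O := k20.symm ⁻¹' C.B) (S := S)
    (fun j => (hv j).2) (fun j => (R.anσ hp j).continuousAt) hσ (R.open'.mem_nhds hp)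
    (fun p hp j => R.sq' hp j)
  refine ⟨push k20 (F 20 C), W, r, hW, heW, hr, h2.mono hWO, fun p hp => h3 p (hWO hp), ?_⟩
  intro p hp v' k1 k2 k3
  obtain ⟨h5, h6⟩ := h4 p hp v' k1 k2
  subst h5
  exact (FS_int hA hF R (hWO hp) ⟨fun j => ⟨k1 j, h6 j⟩, k3⟩).symm

theorem flip_same {s s' : Bool} {z v : ℂ} (hz : s ≠ s' → z ≠ 0) :
    Same s z v s' (if s = s' then z else z⁻¹) (if s = s' then v else v * (z⁻¹) ^ 3) := by
  unfold Same
  by_cases h : s = s'
  · rw [if_pos h, if_pos h, if_pos h]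
    exact ⟨rfl, rfl⟩
  · rw [if_neg h, if_neg h, if_neg h]
    exact ⟨mul_inv_cancel₀ (hz h), rfl⟩

theorem analyticAt_flip {S S' : L → Bool} {e : E} (h0 : ∀ j, S j ≠ S' j → e.2 j ≠ 0) :
    AnalyticAt ℂ (H95.flip S S') e := by
  unfold H95.flip
  refine analyticAt_fst.prod ?_
  rw [analyticAt_pi_iff]
  intro j
  have h1 : AnalyticAt ℂ (fun p : E => p.2 j) e := by
    have h2 : AnalyticAt ℂ (fun p : E => p.2) e := analyticAt_snd
    exact ((ContinuousLinearMap.proj (R := ℂ) (φ := fun _ : L => ℂ) j).analyticAt _).comp h2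
  by_cases hj : S j = S' j
  · simp only [hj, if_true]; exact h1
  · simp only [hj, if_false]
    exact h1.inv (h0 j hj)

/-- The field `chg`. -/
theorem pre_chg (hA : A1) (hF : IsClosedForm L 16 F) {S S' : L → Bool} {e : E} {v : L → ℂ}
    (hK : e.1 ∈ K6) (hv : OnC S e.1 e.2 v) (hd : H894.Dist S e.2 v)
    (h0 : ∀ j, S j ≠ S' j → e.2 j ≠ 0) :
    FS F S e v = (FS F S' (H95.flip S S' e) (flipv S S' e.2 v)).compContinuousLinearMap
      (fderiv ℝ (H95.flip S S') e) := by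
  have hd1 : Dist S e v := ⟨hv, hd⟩
  have hd2 : Dist S' (H95.flip S S' e) (flipv S S' e.2 v) :=
    ⟨H894.onC_flip h0 hv, (H894.dist_flip h0).2 hd⟩
  obtain ⟨C, σ, R, hp, hσ⟩ := hA S e v hK hv hd1.sep
  obtain ⟨C', σ', R', hp', hσ'⟩ := hA S' (H95.flip S S' e) (flipv S S' e.2 v) hK hd2.1 hd2.sep
  have hfl := analyticAt_flip (S := S) (S' := S') h0
  have e1 := FS_int hA hF R hp (by rw [hσ]; exact hd1)
  have e2 := FS_int hA hF R' hp' (by rw [hσ']; exact hd2)
  rw [hσ] at e1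
  rw [hσ'] at e2
  rw [← e1, ← e2]
  have hne : ∀ᶠ p in 𝓝 e, ∀ j, S j ≠ S' j → p.2 j ≠ 0 := by
    refine eventually_all.2 fun j => ?_
    by_cases hj : S j = S' j
    · exact Eventually.of_forall fun p h => absurd hj h
    · have h5 : ContinuousAt (fun p : E => p.2 j) e := by fun_prop
      filter_upwards [h5.eventually_ne (h0 j hj)] with p hp _
      exact hp
  have hsame : ∀ᶠ q in 𝓝 e, ∀ j, flipv S S' q.2 (σ q) j = σ' (H95.flip S S' q) j := by
    rw [eventually_all]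
    intro j
    have h1 : ContinuousAt (fun q => σ' (H95.flip S S' q) j) e :=
      ContinuousAt.comp (g := fun x => σ' x j) (R'.anσ hp' j).continuousAt hfl.continuousAt
    have h2 : ContinuousAt (fun q => flipv S S' q.2 (σ q) j) e := by
      have hc := (R.anσ hp j).continuousAt
      have hc2 : ContinuousAt (fun p : E => p.2 j) e := by fun_prop
      unfold flipv
      by_cases hj : S j = S' j
      · simp only [hj, if_true]; exact hc
      · simp only [hj, if_false]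
        exact hc.mul ((hc2.inv₀ (h0 j hj)).pow 3)
    refine eq_of_sq h2 h1 (by rw [hσ', hσ]) ?_ ?_
    · rw [hσ]
      exact (hd2.1 j).2
    · filter_upwards [R.open'.mem_nhds hp, hfl.continuousAt.eventually (R'.open'.mem_nhds hp'),
        hne] with q h3 h4 h5
      rw [R'.sq' h4 j]
      exact H894.sq_flip h5 (fun j => R.sq' h3 j) j
  refine F_compare hF R R' hp hp' hfl (Eventually.of_forall fun q => rfl) ?_ (by
    rw [hσ]; exact hd1)
  filter_upwards [hsame, hne] with q h1 h2 j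
  rw [← h1 j]
  exact flip_same (h2 j)

/-- **The interior data.** -/
def pre (hA : A1) (hF : IsClosedForm L 16 F) : H894.Pre where
  FS := FS F
  loc _ _ _ := pre_loc hA hF
  chg _ _ _ _ := pre_chg hA hF

/-! ### The regions with three necks -/

/-- Existence of the families over the regions with three necks. -/
def A2 : Prop := ∀ (R : Region) (S : L → Bool), Far R S → ∀ p₀ ∈ R.dom S,
  ∃ C : Fam L 17, Real (k17 R) R.psi S (R.sht S) C ∧ (k17 R).symm p₀ ∈ C.B

/-- **The local extensions over the regions.** -/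
theorem regLoc (hA : A1) (hA2 : A2) (hF : IsClosedForm L 16 F) : RegLoc (FS F) := by
  intro R S hS p₀ hp₀
  obtain ⟨C, hR, hp⟩ := hA2 R S hS p₀ hp₀
  obtain ⟨h1, h2, h3⟩ := H680.fam_push hF hR.stable (k17 R)
  refine ⟨(k17 R).symm ⁻¹' C.B, push (k17 R) (F 17 C), h1, hp, h2, h3, ?_⟩
  intro p hp hg
  exact FS_eq hA hF hR hp hg.2.2

end Vale.Agent.P273.H888

end
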