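import Vale.Agent.P273.H183.Fam

/-!
Change of variables for the density of a form of top degree under holomorphic injective maps.
-/

noncomputable section

namespace Vale.Agent.P273.H888

open Set H183 MeasureTheory

variable {m : ℕ}

/-- The frame in the definition of `dens`. -/
def frm (m : ℕ) (a : Fin (m * 2)) : Fin m → ℂ :=
  Pi.single a.divNat (if a.modNat = 0 then 1 else Complex.I)

/-- The frame is a real basis. -/
def frmB (m : ℕ) : Module.Basis (Fin (m * 2)) ℝ (Fin m → ℂ) :=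
  (Pi.basis fun _ : Fin m => Complex.basisOneI).reindex
    ((Equiv.sigmaEquivProd (Fin m) (Fin 2)).trans finProdFinEquiv)

theorem coe_frmB : ⇑(frmB m) = frm m := by
  funext a
  rw [frmB, Module.Basis.reindex_apply, Pi.basis_apply]
  have h : ((Equiv.sigmaEquivProd (Fin m) (Fin 2)).trans finProdFinEquiv).symm a =
      ⟨a.divNat, a.modNat⟩ := rfl
  rw [h, Complex.coe_basisOneI, frm]
  congr 1
  have h2 : ∀ i : Fin 2, (![1, Complex.I] : Fin 2 → ℂ) i = if i = 0 then 1 else Complex.I := by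
    intro i
    fin_cases i <;> simp
  exact h2 _

theorem dens_eq (F : (Fin m → ℂ) → (Fin m → ℂ) [⋀^Fin (m * 2)]→L[ℝ] ℝ) (b : Fin m → ℂ) :
    dens F b = F b (frm m) := rfl

/-- Pull-back along a real linear map multiplies the value on the frame by the determinant. -/
theorem alt_comp (A : (Fin m → ℂ) →L[ℝ] (Fin m → ℂ))
    (η : (Fin m → ℂ) [⋀^Fin (m * 2)]→L[ℝ] ℝ) :
    (η.compContinuousLinearMap A) (frm m) = A.det * η (frm m) := by
  have h1 : ∀ v, η v = η (frm m) * (frmB m).det v := by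
    intro v
    have h2 := AlternatingMap.eq_smul_basis_det (frmB m) η.toAlternatingMap
    have h3 := congrArg (fun f => f v) h2
    simpa [coe_frmB] using h3
  rw [ContinuousAlternatingMap.compContinuousLinearMap_apply, h1]
  have h4 : (frmB m).det (A ∘ frm m) = A.det := by
    rw [← coe_frmB]
    have h5 := Module.Basis.det_comp (frmB m) (A : (Fin m → ℂ) →ₗ[ℝ] (Fin m → ℂ)) (frmB m)
    rw [Module.Basis.det_self, mul_one] at h5
    exact h5
  rw [h4, mul_comm]

/-- The real determinant of a complex linear map. -/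
theorem det_restrict (A : (Fin m → ℂ) →L[ℂ] (Fin m → ℂ)) :
    (A.restrictScalars ℝ).det = Complex.normSq A.det := by
  have h := LinearMap.det_restrictScalars (R := ℝ) (S := ℂ)
    (f := (A : (Fin m → ℂ) →ₗ[ℂ] (Fin m → ℂ)))
  rw [Algebra.norm_complex_apply] at h
  exact h

theorem det_fderiv {φ : (Fin m → ℂ) → Fin m → ℂ} {b : Fin m → ℂ}
    (hφ : DifferentiableAt ℂ φ b) :
    (fderiv ℝ φ b).det = Complex.normSq (fderiv ℂ φ b).det := by
  rw [hφ.fderiv_restrictScalars ℝ, det_restrict]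

theorem abs_det_fderiv {φ : (Fin m → ℂ) → Fin m → ℂ} {b : Fin m → ℂ}
    (hφ : DifferentiableAt ℂ φ b) : |(fderiv ℝ φ b).det| = (fderiv ℝ φ b).det := by
  rw [det_fderiv hφ]
  exact abs_of_nonneg (Complex.normSq_nonneg _)

/-- Change of variables. -/
theorem integral_dens {φ : (Fin m → ℂ) → Fin m → ℂ} {S : Set (Fin m → ℂ)}
    (hS : MeasurableSet S) (hφ : ∀ b ∈ S, DifferentiableAt ℂ φ b) (hinj : InjOn φ S)
    {ω η : (Fin m → ℂ) → (Fin m → ℂ) [⋀^Fin (m * 2)]→L[ℝ] ℝ}
    (h : ∀ b ∈ S, ω b = (η (φ b)).compContinuousLinearMap (fderiv ℝ φ b)) :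
    (IntegrableOn (dens η) (φ '' S) ↔ IntegrableOn (dens ω) S) ∧
      ∫ b in φ '' S, dens η b = ∫ b in S, dens ω b := by
  have hd : ∀ b ∈ S, HasFDerivWithinAt φ (fderiv ℝ φ b) S b := fun b hb =>
    ((hφ b hb).restrictScalars ℝ).hasFDerivAt.hasFDerivWithinAt
  have he : ∀ b ∈ S, |(fderiv ℝ φ b).det| • dens η (φ b) = dens ω b := by
    intro b hb
    rw [dens_eq, dens_eq, h b hb, alt_comp, abs_det_fderiv (hφ b hb), smul_eq_mul]
  constructor
  · rw [integrableOn_image_iff_integrableOn_abs_det_fderiv_smul volume hS hd hinj]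
    exact integrableOn_congr_fun he hS
  · rw [integral_image_eq_integral_abs_det_fderiv_smul volume hS hd hinj]
    exact setIntegral_congr_fun hS he

/-- Change of variables for a natural form along a morphism of families. -/
theorem integral_mor {L : Type}
    {F : ∀ m', Fam L m' → (Fin m' → ℂ) → (Fin m' → ℂ) [⋀^Fin (m * 2)]→L[ℝ] ℝ}
    (hF : IsClosedForm L (m * 2) F) {T C : Fam L m} (hT : T.IsStable) (hC : C.IsStable)
    {φ : (Fin m → ℂ) → Fin m → ℂ} {Φ : T.X → C.X} (hΦ : IsMor T C φ Φ)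
    {S : Set (Fin m → ℂ)} (hS : MeasurableSet S) (hST : S ⊆ T.B) (hinj : InjOn φ S) :
    (IntegrableOn (dens (F m C)) (φ '' S) ↔ IntegrableOn (dens (F m T)) S) ∧
      ∫ b in φ '' S, dens (F m C) b = ∫ b in S, dens (F m T) b :=
  integral_dens hS (fun b hb => (hΦ.1 b (hST hb)).2.1.differentiableAt) hinj
    fun b hb => hF.2 m m C T φ Φ hC hT hΦ b (hST hb)

end Vale.Agent.P273.H888

end
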