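import Vale.Agent.P273.H503.Top

/-!
Transport of coordinates and of glued families along isomorphisms of graphs: the existence of a
glued family and its integrals are invariants of the graph.
-/

noncomputable section

namespace Vale.Agent.P273.H888

open Set Sum H183 H837

variable {L V E V' E' : Type} {m : ℕ}

section iso

variable (P : V ≃ V') (Q : E × Bool ≃ E' × Bool)

theorem map_symm_map (y : (E × Bool) ⊕ L) : (y.map Q id).map Q.symm id = y := by
  rcases y with y | y
  · simp
  · rfl

theorem map_map_symm (y : (E' × Bool) ⊕ L) : (y.map Q.symm id).map Q id = y := by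
  rcases y with y | y
  · simp
  · rfl

/-- the other half of the edge goes to the other half of the edge -/
theorem side (hQ : ∀ e, (Q (e, true)).1 = (Q (e, false)).1) (e : E) (s : Bool) :
    Q (e, !s) = ((Q (e, s)).1, !(Q (e, s)).2) := by
  have h1 : (Q (e, !s)).1 = (Q (e, s)).1 := by
    cases s
    · exact hQ e
    · exact (hQ e).symm
  have h2 : (Q (e, !s)).2 ≠ (Q (e, s)).2 := fun h => by
    have h3 := Q.injective (Prod.ext h1 h)
    simp at h3
  refine Prod.ext h1 ?_
  revert h2
  cases (Q (e, !s)).2 <;> cases (Q (e, s)).2 <;> simp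

variable {h : (E × Bool) ⊕ L → V} {h' : (E' × Bool) ⊕ L → V'} {P Q}
  (hh : ∀ y, h' (y.map Q id) = P (h y))

include hh in
theorem symm_eq (y : (E' × Bool) ⊕ L) : h (y.map Q.symm id) = P.symm (h' y) := by
  have h1 := hh (y.map Q.symm id)
  rw [map_map_symm] at h1
  rw [h1, Equiv.symm_apply_apply]

/-- The same coordinates for an isomorphic graph. -/
def iso (c : Coord h m) : Coord h' m where
  c := fun y => c.c (y.map Q.symm id)
  const := by
    intro v i
    obtain ⟨y, ⟨h1, h2⟩, h3⟩ := c.const (P.symm v) i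
    refine ⟨y.map Q id, ⟨?_, ?_⟩, fun z hz => ?_⟩
    · rw [hh, h1, Equiv.apply_symm_apply]
    · show c.c ((y.map Q id).map Q.symm id) = _
      rw [map_symm_map, h2]
    · have h4 := h3 (z.map Q.symm id) ⟨by rw [symm_eq hh, hz.1], hz.2⟩
      rw [← h4, map_map_symm]
  coord := by
    intro j
    obtain ⟨y, h1, h2⟩ := c.coord j
    refine ⟨y.map Q id, ?_, fun z hz => ?_⟩
    · show c.c ((y.map Q id).map Q.symm id) = _
      rw [map_symm_map, h1]
    · have h4 := h2 (z.map Q.symm id) hz
      rw [← h4, map_map_symm]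

theorem iso_base (c : Coord h m) : (iso hh c).base = c.base := by
  ext b
  constructor
  · intro hb y y' h1 h2
    have h3 := hb (y.map Q id) (y'.map Q id) (by rw [hh, hh, h1]) (by
      show pt b (c.c ((y.map Q id).map Q.symm id)) = pt b (c.c ((y'.map Q id).map Q.symm id))
      rw [map_symm_map, map_symm_map, h2])
    have h4 := congrArg (fun z => z.map Q.symm id) h3
    simpa only [map_symm_map] using h4
  · intro hb y y' h1 h2
    have h3 := hb (y.map Q.symm id) (y'.map Q.symm id) (by rw [symm_eq hh, symm_eq hh, h1]) h2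
    have h4 := congrArg (fun z => z.map Q id) h3
    simpa only [map_map_symm] using h4

theorem isGlued_iso (hQ : ∀ e, (Q (e, true)).1 = (Q (e, false)).1) {c : Coord h m}
    {C : Fam L m} (hc : c.IsGlued C) : (iso hh c).IsGlued C := by
  obtain ⟨h1, g, h2, h3, h4⟩ := hc
  refine ⟨by rw [iso_base, h1], fun v => g (P.symm v), fun v => ?_, fun p hp => ?_, fun b hb => ?_⟩
  · rw [iso_base]
    exact h2 _
  · rw [iso_base] at hp
    obtain ⟨v, z, h5⟩ := h3 p hp
    refine ⟨P v, z, ?_⟩
    show g (P.symm (P v)) z (C.π p) = p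
    rw [Equiv.symm_apply_apply, h5]
  · rw [iso_base] at hb
    obtain ⟨h5, h6, h7, h8⟩ := h4 b hb
    refine ⟨fun v z => h5 _ z, fun v z v' z' => ?_, fun v z f hf => h7 _ z f hf, fun x => ?_⟩
    · rw [h6]
      refine or_congr (and_congr_left' P.symm.injective.eq_iff) ⟨?_, ?_⟩
      · rintro ⟨e, s, ⟨k1, k2⟩, k3, k4⟩
        refine ⟨(Q (e, s)).1, (Q (e, s)).2, ⟨?_, ?_⟩, ?_, ?_⟩
        · have k5 := hh (inl (e, s))
          rw [← k1, Equiv.apply_symm_apply] at k5
          exact k5.symm
        · show z = pt b (c.c (inl (Q.symm ((Q (e, s)).1, (Q (e, s)).2))))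
          rw [Prod.mk.eta, Equiv.symm_apply_apply]
          exact k2
        · have k5 := hh (inl (e, !s))
          rw [← k3, Equiv.apply_symm_apply] at k5
          rw [← k5, Sum.map_inl, side Q hQ]
        · show z' = pt b (c.c (inl (Q.symm ((Q (e, s)).1, !(Q (e, s)).2))))
          rw [← side Q hQ, Equiv.symm_apply_apply]
          exact k4
      · rintro ⟨e', s', ⟨k1, k2⟩, k3, k4⟩
        obtain ⟨⟨e, s⟩, k5⟩ := Q.surjective (e', s')
        have k6 : Q.symm (e', s') = (e, s) := by rw [← k5, Equiv.symm_apply_apply]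
        have k7 : Q.symm (e', !s') = (e, !s) := by
          rw [Equiv.symm_apply_eq, side Q hQ, k5]
        refine ⟨e, s, ⟨?_, ?_⟩, ?_, ?_⟩
        · rw [k1, ← symm_eq hh, Sum.map_inl, k6]
        · rw [k2]
          show pt b (c.c (inl (Q.symm (e', s')))) = _
          rw [k6]
        · rw [k3, ← symm_eq hh, Sum.map_inl, k7]
        · rw [k4]
          show pt b (c.c (inl (Q.symm (e', !s')))) = _
          rw [k7]
    · have h9 := h8 x
      rw [h9]
      show g (h (inr x)) (pt b (c.c (inr x))) b =
        g (P.symm (h' (inr x))) (pt b (c.c (inr x))) b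
      have h10 := symm_eq hh (inr x)
      rw [Sum.map_inr] at h10
      rw [← h10]
      rfl

end iso

open H503

/-- The existence of a glued family is invariant under isomorphisms. -/
theorem indepEx : IndepEx := by
  intro h h' P Q hQ hh ⟨c, C, h1, h2⟩
  exact ⟨iso hh c, C, h1, isGlued_iso hh hQ h2⟩

/-- The independence of the choices for a fixed graph is enough. -/
theorem indep_of (hI : ∀ F : Form16, IsClosedForm Lg14 (8 * 2) F → ∀ (h : H93.Gr)
    (c : Coord h 8) (C : Fam Lg14 8) (c' : Coord h 8) (C' : Fam Lg14 8),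
      C.IsStable → c.IsGlued C → C'.IsStable → c'.IsGlued C' →
      (MeasureTheory.IntegrableOn (dens (F 8 C)) c.base →
        MeasureTheory.IntegrableOn (dens (F 8 C')) c'.base) ∧
      ∫ b in c.base, dens (F 8 C) b = ∫ b in c'.base, dens (F 8 C') b) : Indep := by
  intro F hF h h' P Q hQ hh c C c' C' h1 h2 h3 h4
  have h5 := hI F hF h' (iso hh c) C c' C' h1 (isGlued_iso hh hQ h2) h3 h4
  rwa [iso_base] at h5

end Vale.Agent.P273.H888

end
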