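import Vale.Agent.P273.H507.Mor
import Vale.Agent.P273.H888.PosP

/-!
The map of the start families over a map of the bases; contractions of restrictions.
-/

noncomputable section

namespace Vale.Agent.P273.H888

open Set Filter Topology
open Vale.Agent.P273.H183 (emb emb' crd crd' tot Zaff Zfar startS pr aff far cA cF hlo Fam)
open Vale.Agent.P273.H507 (Ctr SMap Good IsRestr)
open Vale.Agent.P273.H948 (Surf)
open H95 (Same pol)

variable {n m : ℕ} {W : Set (Fin n → ℂ)} {W₀ : Set (Fin m → ℂ)} {a : (Fin n → ℂ) → Fin 6 → ℂ}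
  {a₀ : (Fin m → ℂ) → Fin 6 → ℂ}

/-- The same point of the curve, over another base point with the same coefficients. -/
theorem tot_tr {b : Fin n → ℂ} {b₀ : Fin m → ℂ} {t : ℂ × ℂ × ℂ × ℂ} (h : (b, t) ∈ tot W a)
    (hb : b₀ ∈ W₀) (e : a₀ b₀ = a b) : (b₀, t) ∈ tot W₀ a₀ := by
  rcases h with ⟨⟨c, x, y⟩, hz, e1⟩ | ⟨⟨c, x, y⟩, hz, e1⟩
  · obtain ⟨h1, h2⟩ := Prod.mk.inj e1
    have h1 : c = b := h1
    subst h1
    refine Or.inl ⟨(b₀, x, y), ⟨hb, ?_⟩, ?_⟩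
    · change y ^ 2 = H183.sx (a₀ b₀) x
      rw [e]
      exact hz.2
    · rw [← h2]; rfl
  · obtain ⟨h1, h2⟩ := Prod.mk.inj e1
    have h1 : c = b := h1
    subst h1
    refine Or.inr ⟨(b₀, x, y), ⟨hb, ?_⟩, ?_⟩
    · change y ^ 2 = H183.sw (a₀ b₀) x
      rw [e]
      exact hz.2
    · rw [← h2]; rfl

open Classical in
/-- The map of the start families over `φ`. -/
def smap [Nonempty (tot W₀ a₀)] (φ : (Fin n → ℂ) → Fin m → ℂ) (P : tot W a) : tot W₀ a₀ :=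
  if h : (φ (pr P), P.1.2) ∈ tot W₀ a₀ then ⟨_, h⟩ else Classical.arbitrary _

section

variable [Nonempty (tot W₀ a₀)] {φ : (Fin n → ℂ) → Fin m → ℂ} {D : Set (Fin n → ℂ)}

theorem smap_val (hφ : ∀ b ∈ D, φ b ∈ W₀) (he : ∀ b ∈ D, a₀ (φ b) = a b) {P : tot W a}
    (hP : pr P ∈ D) : (smap φ P : tot W₀ a₀).1 = (φ (pr P), P.1.2) := by
  have h : (φ (pr P), P.1.2) ∈ tot W₀ a₀ :=
    tot_tr (b := pr P) (t := P.1.2) P.2 (hφ _ hP) (he _ hP)
  rw [smap, dif_pos h]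

theorem cA_smap (hφ : ∀ b ∈ D, φ b ∈ W₀) (he : ∀ b ∈ D, a₀ (φ b) = a b) {P : tot W a}
    (hP : pr P ∈ D) : cA (smap φ P : tot W₀ a₀) = (φ (pr P), (cA P).2) := by
  change crd (smap φ P : tot W₀ a₀).1 = _
  rw [smap_val hφ he hP]; rfl

theorem cF_smap (hφ : ∀ b ∈ D, φ b ∈ W₀) (he : ∀ b ∈ D, a₀ (φ b) = a b) {P : tot W a}
    (hP : pr P ∈ D) : cF (smap φ P : tot W₀ a₀) = (φ (pr P), (cF P).2) := by
  change crd' (smap φ P : tot W₀ a₀).1 = _
  rw [smap_val hφ he hP]; rfl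

variable {hW : IsOpen W} {ha : ∀ b ∈ W, AnalyticAt ℂ a b} {hK : ∀ b ∈ W, a b ∈ H183.K6}
  {hW₀ : IsOpen W₀} {ha₀ : ∀ b ∈ W₀, AnalyticAt ℂ a₀ b} {hK₀ : ∀ b ∈ W₀, a₀ b ∈ H183.K6}

theorem continuousAt_smap (hD : IsOpen D) (hφ : ∀ b ∈ D, φ b ∈ W₀)
    (he : ∀ b ∈ D, a₀ (φ b) = a b) (hc : ∀ b ∈ D, ContinuousAt φ b) {P : tot W a}
    (hP : pr P ∈ D) : ContinuousAt (smap φ : tot W a → tot W₀ a₀) P := by
  rw [Topology.IsEmbedding.subtypeVal.continuousAt_iff]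
  have h1 : ContinuousAt (fun Q : tot W a => (φ (pr Q), Q.1.2)) P := by
    refine ContinuousAt.prodMk ?_ (continuous_subtype_val.snd).continuousAt
    exact ContinuousAt.comp (g := φ) (hc _ hP) H183.continuous_pr.continuousAt
  refine h1.congr ?_
  filter_upwards [(hD.preimage H183.continuous_pr).mem_nhds hP] with Q hQ
  rw [Function.comp_apply, smap_val hφ he hQ]

theorem hlo_smap (hD : IsOpen D) (hφ : ∀ b ∈ D, φ b ∈ W₀)
    (he : ∀ b ∈ D, a₀ (φ b) = a b) (hc : ∀ b ∈ D, AnalyticAt ℂ φ b) {P : tot W a}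
    (hP : pr P ∈ D) {g : tot W₀ a₀ → ℂ} (hg : hlo g (smap φ P)) :
    hlo (fun Q : tot W a => g (smap φ Q)) P := by
  have hcs := continuousAt_smap hD hφ he (fun b hb => (hc b hb).continuousAt) hP
  have hval := smap_val (a₀ := a₀) (W₀ := W₀) hφ he hP
  have hn : ∀ᶠ Q : tot W a in 𝓝 P, pr Q ∈ D := (hD.preimage H183.continuous_pr).mem_nhds hP
  rcases hg with ⟨hA, G, hG, e⟩ | ⟨hA, G, hG, e⟩
  · left
    have hA' : (smap φ P : tot W₀ a₀).1.2.1 ≠ 0 := hA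
    rw [hval] at hA'
    refine ⟨hA', fun z => G (φ z.1, z.2), ?_, ?_⟩
    · rw [cA_smap hφ he hP] at hG
      have h1 : AnalyticAt ℂ (fun z : (Fin n → ℂ) × ℂ × ℂ => (φ z.1, z.2)) (cA P) := by
        refine AnalyticAt.prod ?_ analyticAt_snd
        exact AnalyticAt.comp (g := φ) (hc _ hP) analyticAt_fst
      exact AnalyticAt.comp (g := G) (f := fun z : (Fin n → ℂ) × ℂ × ℂ => (φ z.1, z.2)) hG h1
    · filter_upwards [hcs.eventually e, hn] with Q h1 h2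
      rw [h1, cA_smap hφ he h2]; rfl
  · right
    have hA' : (smap φ P : tot W₀ a₀).1.2.1 ≠ 1 := hA
    rw [hval] at hA'
    refine ⟨hA', fun z => G (φ z.1, z.2), ?_, ?_⟩
    · rw [cF_smap hφ he hP] at hG
      have h1 : AnalyticAt ℂ (fun z : (Fin n → ℂ) × ℂ × ℂ => (φ z.1, z.2)) (cF P) := by
        refine AnalyticAt.prod ?_ analyticAt_snd
        exact AnalyticAt.comp (g := φ) (hc _ hP) analyticAt_fst
      exact AnalyticAt.comp (g := G) (f := fun z : (Fin n → ℂ) × ℂ × ℂ => (φ z.1, z.2)) hG h1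
    · filter_upwards [hcs.eventually e, hn] with Q h1 h2
      rw [h1, cF_smap hφ he h2]; rfl

theorem bijOn_smap (hDW : D ⊆ W) (hφ : ∀ b ∈ D, φ b ∈ W₀)
    (he : ∀ b ∈ D, a₀ (φ b) = a b) {b : Fin n → ℂ} (hb : b ∈ D) :
    BijOn (smap φ : tot W a → tot W₀ a₀) (pr ⁻¹' {b}) (pr ⁻¹' {φ b}) := by
  refine ⟨?_, ?_, ?_⟩
  · intro P hP
    have hP : pr P = b := hP
    have hP' : pr P ∈ D := hP ▸ hb
    change (smap φ P : tot W₀ a₀).1.1 = φ b
    rw [smap_val hφ he hP', hP]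
  · intro P hP Q hQ e
    have hP : pr P = b := hP
    have hQ : pr Q = b := hQ
    have e1 : (smap φ P : tot W₀ a₀).1 = (smap φ Q : tot W₀ a₀).1 := congrArg Subtype.val e
    rw [smap_val hφ he (hP ▸ hb), smap_val hφ he (hQ ▸ hb)] at e1
    refine Subtype.ext (Prod.ext (hP.trans hQ.symm) ?_)
    exact (Prod.mk.inj e1).2
  · intro Q hQ
    have hQ : pr Q = φ b := hQ
    have h1 : (b, Q.1.2) ∈ tot W a :=
      tot_tr (W := W₀) (a := a₀) (b := φ b) (t := Q.1.2)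
        (by rw [← hQ]; exact Q.2) (hDW hb) (he b hb).symm
    refine ⟨⟨_, h1⟩, rfl, ?_⟩
    refine Subtype.ext ?_
    rw [smap_val hφ he (P := ⟨(b, Q.1.2), h1⟩) hb]
    exact Prod.ext hQ.symm rfl

/-- **The map of the start families is an isomorphism on the fibres.** -/
theorem sMap_smap (hD : IsOpen D) (hDW : D ⊆ W) (hφ : ∀ b ∈ D, φ b ∈ W₀)
    (he : ∀ b ∈ D, a₀ (φ b) = a b) (hc : ∀ b ∈ D, AnalyticAt ℂ φ b) :
    SMap (startS W a hW ha hK) (startS W₀ a₀ hW₀ ha₀ hK₀) D φ (smap φ) where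
  π P hP := by
    have hP : pr P ∈ D := hP
    exact congrArg Prod.fst (smap_val (a₀ := a₀) (W₀ := W₀) hφ he hP)
  cont P hP := continuousAt_smap hD hφ he (fun b hb => (hc b hb).continuousAt) hP
  bij b hb := bijOn_smap hDW hφ he hb
  hol P hP g hg := hlo_smap hD hφ he hc hP hg

omit [Nonempty (tot W₀ a₀)] in
theorem pr_posP [Nonempty (tot W a)] {s : Bool} {z v : (Fin n → ℂ) → ℂ} {b : Fin n → ℂ}
    (hb : b ∈ W) (h : v b ^ 2 = pol s (a b) (z b)) : pr (posP s z v b : tot W a) = b := by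
  change (posP s z v b : tot W a).1.1 = b
  rw [posP_val hb h, ept]
  split_ifs <;> rfl

theorem smap_posP [Nonempty (tot W a)] (hDW : D ⊆ W) (hφ : ∀ b ∈ D, φ b ∈ W₀)
    (he : ∀ b ∈ D, a₀ (φ b) = a b)
    {s s' : Bool} {z v : (Fin n → ℂ) → ℂ} {z' v' : (Fin m → ℂ) → ℂ} {b : Fin n → ℂ} (hb : b ∈ D)
    (h : v b ^ 2 = pol s (a b) (z b)) (h' : v' (φ b) ^ 2 = pol s' (a₀ (φ b)) (z' (φ b)))
    (hS : Same s (z b) (v b) s' (z' (φ b)) (v' (φ b))) :
    (smap φ (posP s z v b : tot W a) : tot W₀ a₀) = posP s' z' v' (φ b) := by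
  have h1 := posP_val (hDW hb) h
  have h2 : pr (posP s z v b : tot W a) = b := pr_posP (hDW hb) h
  have h4 : pr (posP s z v b : tot W a) ∈ D := by rw [h2]; exact hb
  refine Subtype.ext ?_
  rw [smap_val hφ he h4, posP_val (hφ b hb) h', h2]
  have h3 : ept s (φ b) (z b) (v b) = ept s' (φ b) (z' (φ b)) (v' (φ b)) :=
    ept_eq_iff.2 ⟨rfl, hS⟩
  rw [← h3, h1, ept, ept]
  split_ifs <;> rfl

end

/-- The contraction of a restriction. -/
theorem ctr_restr {L : Type} {C T : Fam L n} {X₀ : Surf n} {P : L → (Fin n → ℂ) → X₀.X}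
    {r : C.X → X₀.X} (hr : Ctr C X₀ P r) {D : Set (Fin n → ℂ)} (hDB : D ⊆ C.B) {ι : T.X → C.X}
    (hι : IsRestr C D T ι) : Ctr T X₀ P (r ∘ ι) where
  cont := hr.cont.comp hι.emb.continuous
  π_r x := by rw [Function.comp_apply, hr.π_r, hι.π]
  pull x g hg := by
    have h1 := hr.pull (ι x) g hg
    exact (hι.hol_comp x _).2 h1
  rs j b hb := by
    have hb : b ∈ D := hι.B ▸ hb
    rw [Function.comp_apply, hι.s j b hb, hr.rs j b (hDB hb)]
  bij b hb hg := by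
    have hb : b ∈ D := hι.B ▸ hb
    refine BijOn.comp (hr.bij b (hDB hb) hg) ⟨?_, hι.emb.injective.injOn, ?_⟩
    · intro x hx
      change C.π (ι x) = b
      rw [hι.π]; exact hx
    · intro x hx
      have hx : C.π x = b := hx
      obtain ⟨y, rfl⟩ := hι.ex x (by rw [hx]; exact hb)
      refine ⟨y, ?_, rfl⟩
      change T.π y = b
      rw [← hι.π]; exact hx

end Vale.Agent.P273.H888

end
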