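import Vale.Agent.P273.D14.H837.FX

/-!
The value of the functional on the theta graphs whose two core legs (the legs with `σ b i = 6`)
are at any of the two ends of the chains.
-/

noncomputable section

namespace Vale.Agent.P273.H888

open Sum Vale.Agent.P273 Vale.Agent.P273.Num Vale.Agent.P273.D14 Vale.Agent.P273.D14.H387
  Vale.Agent.P273.D14.H837
theorem hv_six' : ∀ p q : Fin 7, p ≤ q →
    (Finset.univ.filter fun y : (Fin 3 ⊕ Fin 6) × Bool => hv p q y = some 6).card = 3 := by
  decide

theorem hv_six (p q : Fin 7) (hpq : p ≤ q) : ∃ y₁ y₂ y₃ : (Fin 3 ⊕ Fin 6) × Bool,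
    (y₁ ≠ y₂ ∧ y₁ ≠ y₃ ∧ y₂ ≠ y₃) ∧ hv p q y₁ = some 6 ∧ hv p q y₂ = some 6 ∧
      hv p q y₃ = some 6 := by
  obtain ⟨x, y, z, h1, h2, h3, h⟩ := Finset.card_eq_three.1 (hv_six' p q hpq)
  have key : ∀ w, w ∈ ({x, y, z} : Finset ((Fin 3 ⊕ Fin 6) × Bool)) → hv p q w = some 6 := by
    intro w hw
    rw [← h] at hw
    exact (Finset.mem_filter.1 hw).2
  exact ⟨x, y, z, ⟨h1, h2, h3⟩, key x (by simp), key y (by simp), key z (by simp)⟩

open scoped Classical

/-- The place of the leg with number `t`: the leg `6` is at the vertex `none` if `c` is true. -/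
def plc (c : Bool) (t : Fin 7) : Option (Fin 7) := if c = true ∧ t = 6 then none else some t

/-- The theta graph, with the core leg of class `b` at the vertex `none` if `c b` is true. -/
def thq (c : Bool → Bool) (p q : ℕ) (σ : Bool → Equiv.Perm (Fin 7)) :
    ((Fin 3 ⊕ Fin 6) × Bool) ⊕ (Fin 7 × Bool) → Option (Fin 7) × ℕ
  | inl z => (hv p q z, 0)
  | inr (i, b) => (plc (c b) (σ b i), 0)

theorem thq_snd (c : Bool → Bool) (p q : ℕ) (σ : Bool → Equiv.Perm (Fin 7)) (y) :
    (thq c p q σ y).2 = 0 := by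
  rcases y with z | ⟨i, b⟩ <;> rfl

/-- The permutation of the places. -/
def sw (c : Bool) : Equiv.Perm (Option (Fin 7)) :=
  if c = true then Equiv.swap none (some 6) else Equiv.refl _

theorem sw_some (c : Bool) (t : Fin 7) : sw c (some t) = plc c t := by
  unfold sw plc
  cases c
  · simp
  · by_cases h : t = 6
    · subst h
      simp
    · simp only [if_true, h, and_false, if_false]
      exact Equiv.swap_apply_of_ne_of_ne (by simp) (by simpa using h)

theorem sign_sw (c : Bool) : (Equiv.Perm.sign (sw c) : ℤˣ) = if c = true then -1 else 1 := by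
  unfold sw
  cases c
  · simp
  · simp only [if_true]
    exact Equiv.Perm.sign_swap (by simp)

/-- The sign. -/
def eps (c : Bool → Bool) : ℚ := if c true = c false then 1 else -1

/-- The position of the legs, when the additional legs are at the free places. -/
theorem det_perm' (c : Bool → Bool) (σ : Bool → Equiv.Perm (Fin 7)) (α : LL → Option (Fin 7))
    (h : ∀ i b, α (i.castSucc, b) = plc (c b) (σ b i))
    (h7 : ∀ b, α (Fin.last 7, b) = sw (c b) none) :
    sgM α = eps c * Num.sg σ := by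
  let e : Fin 8 ≃ Option (Fin 7) := finSuccEquivLast
  let ρ : Bool → Equiv.Perm (Option (Fin 7)) := fun b => sw (c b) * Equiv.optionCongr (σ b)
  let τ : Bool → Fin 8 ≃ Option (Fin 7) := fun b => e.trans (ρ b)
  have hα : ∀ i b, α (i, b) = τ b i := by
    intro i b
    refine Fin.lastCases ?_ (fun i => ?_) i
    · rw [h7]
      simp only [τ, ρ, e, Equiv.trans_apply, finSuccEquivLast_last, Equiv.Perm.mul_apply]
      rfl
    · rw [h]
      simp only [τ, ρ, e, Equiv.trans_apply, finSuccEquivLast_castSucc, Equiv.Perm.mul_apply]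
      exact (sw_some _ _).symm
  have h1 : sgM α = Matrix.det (Equiv.Perm.permMatrix ℚ ((τ true).trans (τ false).symm)) := by
    unfold sgM
    refine congrArg Matrix.det ?_
    ext i j
    simp only [Matrix.of_apply, hα, Equiv.Perm.permMatrix, PEquiv.toMatrix_apply,
      Equiv.toPEquiv_apply, Option.mem_def, Option.some.injEq, Equiv.trans_apply,
      Equiv.symm_apply_eq]
  rw [h1, Matrix.det_permutation]
  have h2 : ((τ true).trans (τ false).symm) =
      (e.trans ((ρ false)⁻¹ * ρ true)).trans e.symm := by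
    ext i
    rfl
  have h4 : ∀ u : ℤˣ, u⁻¹ = u := Int.units_inv_eq_self
  rw [h2, Equiv.Perm.sign_trans_trans_symm, map_mul, map_inv, h4]
  have h3 : ∀ b, Equiv.Perm.sign (ρ b) = (if c b = true then -1 else 1) *
      Equiv.Perm.sign (σ b) := by
    intro b
    simp only [ρ]
    rw [map_mul, sign_sw, Equiv.optionCongr_sign]
  rw [h3, h3]
  unfold Num.sg eps
  cases c true <;> cases c false <;> simp <;> ring

theorem plc_inj (c : Bool) : Function.Injective (plc c) := by
  intro t u h
  rw [← sw_some, ← sw_some] at h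
  exact Option.some.inj ((sw c).injective h)

/-- The legs are at different places only if the additional legs are at the free places. -/
theorem sg_zero' (c : Bool → Bool) (p q : ℕ) (σ : Bool → Equiv.Perm (Fin 7))
    (v w : Option (Fin 7)) (h : ¬ (v = sw (c true) none ∧ w = sw (c false) none)) :
    sgM (fun x : LL => (Q.ad (Q.ad (thq c p q σ) v 0) w 0 (inr (ep16.symm x))).1) = 0 := by
  by_contra h0
  have h1 := sgM_inj h0
  have e1 : ∀ i b, (Q.ad (Q.ad (thq c p q σ) v 0) w 0 (inr (ep16.symm (Fin.castSucc i, b)))).1 =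
      plc (c b) (σ b i) := by
    intro i b
    have : ep16.symm (Fin.castSucc i, b) = some (some (i, b)) := by
      rw [Equiv.symm_apply_eq, ep16_some]
    rw [this]
    rfl
  have e2 : ∀ u b, u ≠ sw (c b) none → ∃ t, u = plc (c b) t := by
    intro u b hu
    rcases hs : (sw (c b)).symm u with _ | t
    · exact absurd ((Equiv.symm_apply_eq _).1 hs) hu
    · exact ⟨t, by rw [← sw_some]; exact (Equiv.symm_apply_eq _).1 hs⟩
  apply h
  constructor
  · by_contra hv
    obtain ⟨t, ht⟩ := e2 v true hv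
    have h2 := @h1 true (Fin.castSucc ((σ true).symm t)) (Fin.last 7) (by
      show (Q.ad (Q.ad (thq c p q σ) v 0) w 0 (inr (ep16.symm (Fin.castSucc _, true)))).1 = _
      rw [e1, Equiv.apply_symm_apply, ← ht]
      rfl)
    exact (Fin.castSucc_lt_last _).ne h2
  · by_contra hw
    obtain ⟨t, ht⟩ := e2 w false hw
    have h2 := @h1 false (Fin.castSucc ((σ false).symm t)) (Fin.last 7) (by
      show (Q.ad (Q.ad (thq c p q σ) v 0) w 0 (inr (ep16.symm (Fin.castSucc _, false)))).1 = _
      rw [e1, Equiv.apply_symm_apply, ← ht]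
      rfl)
    exact (Fin.castSucc_lt_last _).ne h2

theorem sg_one' (c : Bool → Bool) (p q : ℕ) (σ : Bool → Equiv.Perm (Fin 7)) :
    sgM (fun x : LL => (Q.ad (Q.ad (thq c p q σ) (sw (c true) none) 0) (sw (c false) none) 0
      (inr (ep16.symm x))).1) = eps c * Num.sg σ := by
  apply det_perm'
  · intro i b
    have : ep16.symm (Fin.castSucc i, b) = some (some (i, b)) := by
      rw [Equiv.symm_apply_eq, ep16_some]
    simp only [this]
    rfl
  · intro b
    cases b <;> rfl

theorem three_le {L V E : Type} [Finite E] [Finite L] (f : (E × Bool) ⊕ L → V × ℕ) (v : V)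
    (y₁ y₂ y₃ : (E × Bool) ⊕ L) (h12 : y₁ ≠ y₂) (h13 : y₁ ≠ y₃) (h23 : y₂ ≠ y₃)
    (h1 : (f y₁).1 = v) (h2 : (f y₂).1 = v) (h3 : (f y₃).1 = v) : 3 ≤ Q.nv f v := by
  have : Nat.card (Fin 3) ≤ Nat.card {y // (f y).1 = v} := by
    refine Nat.card_le_card_of_injective (fun r => ⟨![y₁, y₂, y₃] r, ?_⟩) ?_
    · fin_cases r
      · exact h1
      · exact h2
      · exact h3
    · intro r r' h
      have h2 := congrArg Subtype.val h
      fin_cases r <;> fin_cases r' <;> simp_all
  rwa [Nat.card_eq_fintype_card, Fintype.card_fin] at this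

theorem thq_nv (c : Bool → Bool) (p q : Fin 7) (hpq : p ≤ q) (σ : Bool → Equiv.Perm (Fin 7))
    (v : Option (Fin 7)) : 3 ≤ Q.nv (thq c p q σ) v := by
  rcases v with _ | t
  · have : Nat.card (Fin 3) ≤ Nat.card {y // (thq c p q σ y).1 = none} := by
      refine Nat.card_le_card_of_injective (fun r => ⟨inl (inl r, true), rfl⟩) ?_
      intro r r' h
      have h2 := congrArg Subtype.val h
      simpa using h2
    rwa [Nat.card_eq_fintype_card, Fintype.card_fin] at this
  · by_cases ht : t = 6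
    · subst ht
      obtain ⟨y₁, y₂, y₃, ⟨h12, h13, h23⟩, h1, h2, h3⟩ := hv_six p q hpq
      exact three_le _ _ (inl y₁) (inl y₂) (inl y₃) (by simpa using h12) (by simpa using h13)
        (by simpa using h23) h1 h2 h3
    · obtain ⟨z₁, z₂, hz, hz₁, hz₂⟩ := hv_two p q hpq t
      refine three_le _ _ (inl z₁) (inl z₂) (inr ((σ true).symm t, true)) ?_ (by simp) (by simp)
        hz₁ hz₂ ?_
      · simpa using hz
      · change plc (c true) (σ true ((σ true).symm t)) = some t
        rw [Equiv.apply_symm_apply]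
        unfold plc
        simp [ht]

theorem thq_stab (c : Bool → Bool) (p q : Fin 7) (hpq : p ≤ q) (σ : Bool → Equiv.Perm (Fin 7)) :
    Q.Stab und (thq c p q σ) 2 9 := by
  have h0 := thq_snd c p q σ
  refine ⟨inferInstance, inferInstance, inferInstance, ?_, ?_, ?_, ?_⟩
  · intro s hs
    have h := connu' p q hpq (by omega) (· ∈ s) (by
      intro e
      exact hs e)
    have h2 : ∀ v, v ∈ s ↔ none ∈ s := by
      intro v
      rcases v with _ | t
      · exact Iff.rfl
      · obtain ⟨⟨e, b⟩, hy⟩ := hv_surj p q hpq t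
        rw [← h e b]
        have hy' : hv p q (e, b) = some t := hy
        rw [hy']
    by_cases hn : none ∈ s
    · right
      ext v
      simp [h2 v, hn]
    · left
      ext v
      simp [h2 v, hn]
  · simp [und]
  · intro v
    have := thq_nv c p q hpq σ v
    simp only [und]
    omega
  · simp [und, h0]

theorem thq_valid (c : Bool → Bool) (p q : Fin 7) (hpq : p ≤ q) (σ : Bool → Equiv.Perm (Fin 7)) :
    Q.Valid und (thq c p q σ) 2 9 :=
  valid_und 2 9 _ (thq_stab c p q hpq σ) (thq_snd c p q σ)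

/-- The value of the functional with 14 legs. -/
theorem FF_thq (φ : Und) (c : Bool → Bool) (p q : Fin 7) (hpq : p ≤ q)
    (σ : Bool → Equiv.Perm (Fin 7)) :
    FF (G φ) (Option (Fin 7)) (Fin 3 ⊕ Fin 6) und (thq c p q σ) =
      eps c * Num.sg σ * φ (Option (Fin 7)) (Fin 3 ⊕ Fin 6) (hv p q) := by
  have hv1 := thq_stab c p q hpq σ
  have hf := thq_snd c p q σ
  have key : ∀ v w, GG (G φ) (Option (Fin 7)) (Fin 3 ⊕ Fin 6) und
      (Q.ad (Q.ad (thq c p q σ) v 0) w 0) =
      sgM (fun x : LL => (Q.ad (Q.ad (thq c p q σ) v 0) w 0 (inr (ep16.symm x))).1) *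
        φ (Option (Fin 7)) (Fin 3 ⊕ Fin 6) (hv p q) := by
    intro v w
    unfold GG Mv.rb
    have h2 : ∀ y, (Q.ad (Q.ad (thq c p q σ) v 0) w 0 y).2 = 0 := ad_snd _ (ad_snd _ hf v) w
    have h3 : Q.Stab und (Q.ad (Q.ad (thq c p q σ) v 0) w 0) 2 9 :=
      stab_ad _ _ _ _ (stab_ad _ _ _ _ hv1 v) w
    have h4 : Q.Valid und (Q.ad (Q.ad (thq c p q σ) v 0) w 0) 2 9 := valid_und _ _ _ h3 h2
    rw [G_und φ _ (fun y => h2 _)]
    · rfl
    · rw [Mv.valid_relab und (Q.ad (Q.ad (thq c p q σ) v 0) w 0) 2 9 ep16.symm]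
      exact h4
  have hsum : ∀ v, Q.pull 2 9 (GG (G φ)) (Option (Fin 7)) (Fin 3 ⊕ Fin 6) und
      (Q.ad (thq c p q σ) v 0) = ∑ᶠ w, GG (G φ) (Option (Fin 7)) (Fin 3 ⊕ Fin 6) und
      (Q.ad (Q.ad (thq c p q σ) v 0) w 0) := fun v =>
    pull_und _ _ _ _ (stab_ad _ _ _ _ hv1 v) (ad_snd _ hf v)
  unfold FF
  rw [pull_und _ _ _ _ hv1 hf]
  simp only [hsum, key]
  rw [finsum_eq_single _ (sw (c true) none), finsum_eq_single _ (sw (c false) none), sg_one']
  · intro w hw
    rw [sg_zero', zero_mul]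
    exact fun h => hw h.2
  · intro v hv
    refine finsum_eq_zero_of_forall_eq_zero fun w => ?_
    rw [sg_zero', zero_mul]
    exact fun h => hv h.1

/-- The value on the graph with moved core legs is the value on the theta graph, up to sign. -/
theorem FF_thq_eq (φ : Und) (c : Bool → Bool) (p q : Fin 7) (hpq : p ≤ q)
    (σ : Bool → Equiv.Perm (Fin 7)) :
    FF (G φ) (Option (Fin 7)) (Fin 3 ⊕ Fin 6) und (thq c p q σ) =
      eps c * FF (G φ) (Option (Fin 7)) (Fin 3 ⊕ Fin 6) und (th p q σ) := by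
  rw [FF_thq φ c p q hpq σ, FF_th φ p q hpq σ, mul_assoc]

end Vale.Agent.P273.H888
end
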